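import Vale.Agent.P183A.Model

/-!
Subdirect and product type invariant subgroups.
-/

namespace Vale.Agent.P183A

open Subgroup
open scoped commutatorElement

variable {H T : Type} [Group H] [Group T]

/-- A nonabelian simple group. -/
structure NS (T : Type) [Group T] : Prop where
  simple : IsSimpleGroup T
  nab : ∃ a b : T, a * b ≠ b * a

theorem NS.nontrivial (h : NS T) : Nontrivial T := h.simple.toNontrivial

theorem NS.eq (h : NS T) (U : Subgroup T) (hU : Nm ⊤ U) : U = ⊥ ∨ U = ⊤ :=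
  haveI := h.simple
  hU.normal.eq_bot_or_eq_top

theorem NS.perfect (h : NS T) : ⁅(⊤ : Subgroup T), (⊤ : Subgroup T)⁆ = ⊤ := by
  rcases h.eq ⁅(⊤ : Subgroup T), (⊤ : Subgroup T)⁆ (Nm.of_normal _ _) with e | e
  · obtain ⟨a, b, hab⟩ := h.nab
    exact absurd (cm_iff_comm.2 e a trivial b trivial) hab
  · exact e

theorem NS.center (h : NS T) {z : T} (hz : ∀ t, z * t = t * z) : z = 1 := by
  rcases h.eq (Subgroup.center T) (Nm.of_normal _ _) with e | e
  · have : z ∈ Subgroup.center T := mem_center_iff.2 fun t => (hz t).symm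
    rwa [e] at this
  · obtain ⟨a, b, hab⟩ := h.nab
    have : b ∈ Subgroup.center T := by rw [e]; trivial
    exact absurd (mem_center_iff.1 this a) hab

theorem mem_GK_of [Finite T] {K : Subgroup (H → T)} (hI : Inv K) (hS : Sd K) {q : H}
    (hq : ∀ f ∈ K, f 1 = 1 → f q = 1) : ∃ σ, (q, σ) ∈ GK K := by
  choose F hF hF1 using hS
  have key : ∀ f ∈ K, F (f 1) q = f q := fun f hf => by
    have := hq (F (f 1) * f⁻¹) (mul_mem (hF _) (inv_mem hf)) (by simp [hF1])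
    simpa [mul_inv_eq_one] using this
  let φ : T →* T := MonoidHom.mk' (fun t => F t q) fun a b => by
    have := key (F a * F b) (mul_mem (hF a) (hF b))
    simpa [hF1] using this
  have hsurj : Function.Surjective φ := fun t => by
    refine ⟨F t q⁻¹, ?_⟩
    have := key _ (hI _ (hF t) q⁻¹)
    change F (F t q⁻¹) q = t
    simpa [hF1] using this
  let σ : MulAut T := MulEquiv.ofBijective φ (Finite.surjective_iff_bijective.1 hsurj)
  refine ⟨σ, fun f hf h => ?_⟩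
  have := key _ (hI f hf h)
  simp only [one_mul] at this
  exact this.symm

/-- Values at `1` of the functions of `K` that vanish on `s`. -/
def van (K : Subgroup (H → T)) (s : Set H) : Subgroup T where
  carrier := {t | ∃ f ∈ K, f 1 = t ∧ ∀ h ∈ s, f h = 1}
  one_mem' := ⟨1, K.one_mem, rfl, fun _ _ => rfl⟩
  mul_mem' := by
    rintro _ _ ⟨f, hf, rfl, h1⟩ ⟨g, hg, rfl, h2⟩
    exact ⟨f * g, mul_mem hf hg, rfl, fun h hh => by simp [h1 h hh, h2 h hh]⟩
  inv_mem' := by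
    rintro _ ⟨f, hf, rfl, h1⟩
    exact ⟨f⁻¹, inv_mem hf, rfl, fun h hh => by simp [h1 h hh]⟩

theorem van_single [Finite T] (hT : NS T) {K : Subgroup (H → T)} (hI : Inv K) (hS : Sd K) {h : H}
    (hh : ¬ ∃ σ, (h, σ) ∈ GK K) : van K {h} = ⊤ := by
  have hn : Nm ⊤ (van K {h}) := by
    rintro t - _ ⟨f, hf, rfl, h1⟩
    obtain ⟨g, hg, rfl⟩ := hS t
    exact ⟨g * f * g⁻¹, mul_mem (mul_mem hg hf) (inv_mem hg), rfl, fun x hx => by simp [h1 x hx]⟩
  refine (hT.eq _ hn).resolve_left fun e => hh ?_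
  obtain ⟨σ, hσ⟩ := mem_GK_of hI hS (q := h⁻¹) fun f hf h1 => by
    have : f h⁻¹ ∈ van K {h} := ⟨_, hI f hf h⁻¹, by simp, fun x hx => by
      rw [Set.mem_singleton_iff.1 hx]; simpa using h1⟩
    rwa [e] at this
  exact ⟨σ⁻¹, by simpa using (GK K).inv_mem hσ⟩

theorem van_all [Finite T] (hT : NS T) {K : Subgroup (H → T)} (hI : Inv K) (hS : Sd K)
    (s : Set H) (hs : s.Finite) : (∀ h ∈ s, ¬ ∃ σ, (h, σ) ∈ GK K) → van K s = ⊤ := by
  induction s, hs using Set.Finite.induction_on with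
  | empty =>
    refine fun _ => eq_top_iff.2 fun t _ => ?_
    obtain ⟨f, hf, e⟩ := hS t
    exact ⟨f, hf, e, fun _ h => absurd h (by simp)⟩
  | @insert h s _ _ ih =>
    intro hh
    have e1 := ih fun x hx => hh x (Set.mem_insert_of_mem _ hx)
    have e2 := van_single hT hI hS (hh h (Set.mem_insert _ _))
    rw [eq_top_iff, ← hT.perfect]
    conv_lhs => rw [← e1]; enter [2]; rw [e1, ← e2]
    rw [commutator_le]
    rintro _ ⟨f, hf, rfl, h1⟩ _ ⟨g, hg, rfl, h2⟩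
    refine ⟨⁅f, g⁆, ?_, rfl, fun x hx => ?_⟩
    · exact mul_mem (mul_mem (mul_mem hf hg) (inv_mem hf)) (inv_mem hg)
    · rcases Set.mem_insert_iff.1 hx with rfl | hx
      · simp [commutatorElement_def, h2 x rfl]
      · simp [commutatorElement_def, h1 x hx]

/-- Scott's lemma. -/
theorem KG_GK [Finite H] [Finite T] (hT : NS T) {K : Subgroup (H → T)} (hI : Inv K) (hS : Sd K) :
    KG (GK K) = K := by
  refine le_antisymm ?_ (le_KG_iff.2 le_rfl)
  rw [← PU_top]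
  refine gen_le (graph_GK hS) hI fun t _ => ?_
  have : t ∈ van K {h | ¬ ∃ σ, (h, σ) ∈ GK K} := by
    rw [van_all hT hI hS {h | ¬ ∃ σ, (h, σ) ∈ GK K} (Set.toFinite _) fun _ h => h]; trivial
  obtain ⟨f, hf, rfl, h1⟩ := this
  rw [← eq_dl (graph_GK hS) (le_KG_iff.2 le_rfl hf) h1]
  exact hf

/-- Values at `1`. -/
def ev (K : Subgroup (H → T)) : Subgroup T := K.map (Pi.evalMonoidHom (fun _ => T) 1)

theorem mem_ev {K : Subgroup (H → T)} {t : T} : t ∈ ev K ↔ ∃ f ∈ K, f 1 = t := Iff.rfl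

theorem ev_mono {K K' : Subgroup (H → T)} (h : K ≤ K') : ev K ≤ ev K' := map_mono h

theorem sd_iff {K : Subgroup (H → T)} : Sd K ↔ ev K = ⊤ :=
  ⟨fun h => eq_top_iff.2 fun t _ => h t, fun h t => by
    have : t ∈ ev K := by rw [h]; trivial
    exact this⟩

theorem ainv_ev {Γ : Subgroup (H × MulAut T)} {K : Subgroup (H → T)} (hI : Inv K) (hK : K ≤ KG Γ) :
    AInv Γ (ev K) := by
  rintro γ hγ _ ⟨f, hf, rfl⟩
  refine ⟨_, hI f hf γ.1, ?_⟩
  simpa using hK hf γ hγ 1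

theorem le_PU_ev {Γ : Subgroup (H × MulAut T)} {K : Subgroup (H → T)} (hI : Inv K)
    (hK : K ≤ KG Γ) : K ≤ PU Γ (ev K) := fun f hf =>
  mem_PU.2 ⟨hK hf, fun h => ⟨_, hI f hf h, by simp⟩⟩

theorem ev_PU {Γ : Subgroup (H × MulAut T)} (hΓ : Graph Γ) {U : Subgroup T} (hU : AInv Γ U) :
    ev (PU Γ U) = U := by
  refine le_antisymm ?_ fun t ht => ⟨_, dl_mem_PU hΓ le_rfl hU ht, dl_one hΓ t⟩
  rintro _ ⟨f, hf, rfl⟩
  exact (mem_PU.1 hf).2 1

theorem ev_eq_bot {K : Subgroup (H → T)} (hI : Inv K) (h : ev K = ⊥) : K = ⊥ := by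
  refine le_bot_iff.1 fun f hf => mem_bot.2 (funext fun x => ?_)
  have : f x ∈ ev K := ⟨_, hI f hf x, by simp⟩
  rwa [h] at this

theorem dl_conj {Γ : Subgroup (H × MulAut T)} (hΓ : Graph Γ) {f : H → T} (hf : f ∈ KG Γ) (t : T) :
    dl Γ (f 1 * t * (f 1)⁻¹) = f * dl Γ t * f⁻¹ := by
  have h1 := eq_dl hΓ (mul_mem (mul_mem hf (dl_mem hΓ t)) (inv_mem hf)) fun h hh => by
    simp [dl_of_not t hh]
  rw [h1]
  simp [dl_one hΓ]

/-- The values of functions of `K` supported on the first block. -/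
def cor {Γ : Subgroup (H × MulAut T)} (hΓ : Graph Γ) (K : Subgroup (H → T)) : Subgroup T where
  carrier := {t | dl Γ t ∈ K}
  one_mem' := by
    have h1 := eq_dl hΓ (KG Γ).one_mem fun _ _ => rfl
    change dl Γ ((1 : H → T) 1) ∈ K
    rw [← h1]; exact K.one_mem
  mul_mem' := fun {a b} ha hb => by
    have h1 := eq_dl hΓ (mul_mem (dl_mem hΓ a) (dl_mem hΓ b)) fun h hh => by
      simp [dl_of_not _ hh]
    simp only [Pi.mul_apply, dl_one hΓ] at h1
    change dl Γ (a * b) ∈ K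
    rw [← h1]; exact mul_mem ha hb
  inv_mem' := fun {a} ha => by
    have h1 := eq_dl hΓ (inv_mem (dl_mem hΓ a)) fun h hh => by simp [dl_of_not _ hh]
    simp only [Pi.inv_apply, dl_one hΓ] at h1
    change dl Γ a⁻¹ ∈ K
    rw [← h1]; exact inv_mem ha

theorem mem_cor {Γ : Subgroup (H × MulAut T)} (hΓ : Graph Γ) {K : Subgroup (H → T)} {t : T} :
    t ∈ cor hΓ K ↔ dl Γ t ∈ K := Iff.rfl

theorem cor_le_ev {Γ : Subgroup (H × MulAut T)} (hΓ : Graph Γ) (K : Subgroup (H → T)) :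
    cor hΓ K ≤ ev K := fun t ht => ⟨_, ht, dl_one hΓ t⟩

theorem nm_cor {Γ : Subgroup (H × MulAut T)} (hΓ : Graph Γ) {K : Subgroup (H → T)}
    (hK : K ≤ KG Γ) : Nm (ev K) (cor hΓ K) := by
  rintro _ ⟨f, hf, rfl⟩ t ht
  change dl Γ (f 1 * t * (f 1)⁻¹) ∈ K
  rw [dl_conj hΓ (hK hf)]
  exact mul_mem (mul_mem hf ht) (inv_mem hf)

theorem ainv_cor {Γ : Subgroup (H × MulAut T)} (hΓ : Graph Γ) {K : Subgroup (H → T)}
    (hI : Inv K) : AInv Γ (cor hΓ K) := by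
  intro γ hγ t ht
  have h1 := eq_dl hΓ (inv_KG Γ _ (dl_mem hΓ t) γ.1) fun h hh => dl_of_not _ (by
    rintro ⟨σ, hσ⟩
    refine hh ⟨σ * γ.2⁻¹, ?_⟩
    have h1 : (h, σ * γ.2⁻¹) = (h * γ.1, σ) * γ⁻¹ := Prod.ext (by simp) rfl
    rw [h1]
    exact Γ.mul_mem hσ (Γ.inv_mem hγ))
  simp only [one_mul] at h1
  rw [dl_of_mem hΓ t (σ := γ.2) hγ] at h1
  change dl Γ (γ.2 t) ∈ K
  rw [← h1]
  exact hI _ ht γ.1

theorem PU_cor_le [Finite H] {Γ : Subgroup (H × MulAut T)} (hΓ : Graph Γ) {K : Subgroup (H → T)}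
    (hI : Inv K) : PU Γ (cor hΓ K) ≤ K := gen_le hΓ hI fun _ h => h

theorem le_cor {Γ : Subgroup (H × MulAut T)} (hΓ : Graph Γ) {K : Subgroup (H → T)}
    {U : Subgroup T} (hU : AInv Γ U) (h : PU Γ U ≤ K) : U ≤ cor hΓ K :=
  fun _ ht => h (dl_mem_PU hΓ le_rfl hU ht)

theorem nm_PU (Γ : Subgroup (H × MulAut T)) {U W : Subgroup T} (h : Nm U W) :
    Nm (PU Γ U) (PU Γ W) := fun _ hf _ hg =>
  mem_PU.2 ⟨mul_mem (mul_mem (mem_PU.1 hf).1 (mem_PU.1 hg).1) (inv_mem (mem_PU.1 hf).1),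
    fun x => h _ ((mem_PU.1 hf).2 x) _ ((mem_PU.1 hg).2 x)⟩

/-- A subdirect subgroup containing a nontrivial product is everything. -/
theorem eq_of_sd_PU [Finite H] (hT : NS T) {Γ : Subgroup (H × MulAut T)} (hΓ : Graph Γ)
    {K : Subgroup (H → T)} (hI : Inv K) (hK : K ≤ KG Γ) (hS : Sd K) {U : Subgroup T}
    (hU : AInv Γ U) (hne : U ≠ ⊥) (h : PU Γ U ≤ K) : K = KG Γ := by
  have h1 := nm_cor hΓ hK
  rw [sd_iff.1 hS] at h1
  rcases hT.eq _ h1 with e | e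
  · exact absurd (le_bot_iff.1 ((le_cor hΓ hU h).trans e.le)) hne
  · refine le_antisymm hK ?_
    rw [← PU_top, ← e]
    exact PU_cor_le hΓ hI

/-- Two comparable subdirect subgroups are separated by any product subgroup that meets the
larger one. -/
theorem gadget [Finite H] [Finite T] (hT : NS T) {Γ0 : Subgroup (H × MulAut T)}
    {s s' : Subgroup (H → T)} (hI : Inv s) (hI' : Inv s') (hS : Sd s) (hlt : s < s')
    (hK : s' ≤ KG Γ0) {U : Subgroup T} (hle : s' ⊓ PU Γ0 U ≤ s) : s' ⊓ PU Γ0 U = ⊥ := by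
  have hS' := hS.mono hlt.le
  have hG := graph_GK hS
  have hG' := graph_GK hS'
  have hex : ∃ γ ∈ GK s, γ ∉ GK s' := by
    by_contra c
    push Not at c
    refine hlt.not_ge ?_
    rw [← KG_GK hT hI hS]
    exact le_KG_iff.2 c
  obtain ⟨⟨q, σ⟩, h1, h2⟩ := hex
  have h3 : ¬ ∃ σ', (q, σ') ∈ GK s' := by
    rintro ⟨σ', h⟩
    rw [hG.uniq h1 (GK_anti hlt.le h)] at h2
    exact h2 h
  refine ev_eq_bot (hI'.inf (inv_PU _ _)) (le_bot_iff.1 ?_)
  rintro _ ⟨f, ⟨hf, hfU⟩, rfl⟩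
  have h4 : dl (GK s') (f 1) ∈ s' := by
    have := dl_mem hG' (f 1)
    rwa [KG_GK hT hI' hS'] at this
  have h5 : dl (GK s') (f 1) ∈ PU Γ0 U := mem_PU.2 ⟨hK h4, fun h => by
    by_cases c : ∃ σ, (h, σ) ∈ GK s'
    · obtain ⟨τ, hτ⟩ := c
      rw [dl_of_mem hG' _ hτ]
      have := hτ f hf 1
      simp only [mul_one] at this
      rw [← this]
      exact (mem_PU.1 hfU).2 h
    · rw [dl_of_not _ c]; exact U.one_mem⟩
  have h6 := h1 _ (hle ⟨h4, h5⟩) 1
  simp only [mul_one, dl_of_not _ h3, dl_one hG'] at h6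
  simpa using h6.symm

end Vale.Agent.P183A
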