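import Vale.Agent.P183A.EmbL
import Vale.Agent.P183A.Scott

/-!
Intervals in groups of automorphisms of a simple group.
-/

namespace Vale.Agent.P183A

open Subgroup

variable {H T : Type} [Group H] [Group T] {Λ : Type} [PartialOrder Λ]

/-- Inner automorphisms. -/
def Inn (T : Type) [Group T] : Subgroup (MulAut T) := (MulAut.conj : T →* MulAut T).range

theorem conj_aut (σ : MulAut T) (t : T) : σ * MulAut.conj t * σ⁻¹ = MulAut.conj (σ t) := by
  ext x
  simp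

instance : (Inn T).Normal := ⟨by
  rintro _ ⟨t, rfl⟩ σ
  exact ⟨σ t, (conj_aut σ t).symm⟩⟩

theorem NS.conj_inj (hT : NS T) : Function.Injective (MulAut.conj : T →* MulAut T) := by
  rw [injective_iff_map_eq_one]
  intro z hz
  refine hT.center fun t => ?_
  have := DFunLike.congr_fun hz t
  simp only [MulAut.conj_apply, MulAut.one_apply] at this
  rw [← mul_inv_eq_iff_eq_mul, this]

theorem finite_aut [Finite T] : Finite (MulAut T) :=
  Finite.of_injective (fun σ : MulAut T => (σ : T → T)) DFunLike.coe_injective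

theorem asi_of_aut [Finite T] (hT : NS T) {G' H' : Subgroup (MulAut T)} (hI : Inn T ≤ G')
    (hH : H' ≤ G') (E : Emb Λ (Set.Icc H' G'))
    (h : H' ⊔ Inn T = G' ∨ (Inn T ≤ H' ∧ ¬ Group.IsSolvable (G' ⧸ (Inn T).subgroupOf G'))) :
    ASI Λ := by
  have := finite_aut (T := T)
  have := hT.simple
  refine ⟨G', inferInstance, inferInstance, (Inn T).subgroupOf G', H'.subgroupOf G', inferInstance,
    ?_, ?_, ?_, ?_, ⟨(E.sub hH).iso⟩⟩
  · exact ((MonoidHom.ofInjective hT.conj_inj).trans (subgroupOfEquivOfLe hI).symm).symm.isSimpleGroup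
  · obtain ⟨a, b, hab⟩ := hT.nab
    refine ⟨⟨_, hI ⟨a, rfl⟩⟩, ⟨a, rfl⟩, ⟨_, hI ⟨b, rfl⟩⟩, ⟨b, rfl⟩, fun e => hab (hT.conj_inj ?_)⟩
    rw [map_mul, map_mul]
    exact congrArg Subtype.val e
  · refine le_bot_iff.1 fun σ hσ => mem_bot.2 (Subtype.ext ?_)
    ext t
    have h1 := congrArg Subtype.val (mem_centralizer_iff.1 hσ ⟨_, hI ⟨t, rfl⟩⟩ ⟨t, rfl⟩)
    refine hT.conj_inj ?_
    rw [← conj_aut, mul_inv_eq_iff_eq_mul]
    exact h1.symm
  · refine h.imp (fun e => ?_) fun e => ⟨comap_mono e.1, e.2⟩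
    rw [← subgroupOf_sup hH hI, e, subgroupOf_self]

theorem ext_case [Finite T] (hT : NS T) {Γ0 Γ X : Subgroup (H × MulAut T)} (hm : NoMod Γ0 Γ)
    (h0 : Γ0 ≤ X) (hX : X ≤ Γ) (E : Emb Λ (Set.Icc X Γ)) :
    ASI Λ ∨ Γ0 ⊔ (Γ ⊓ (MonoidHom.snd H (MulAut T)).ker) = Γ ∨
      ∃ V : Subgroup T, V ≠ ⊥ ∧ V ≠ ⊤ ∧ AInv Γ V := by
  let π := MonoidHom.snd H (MulAut T)
  rcases hm.alt (D := Γ ⊓ π.ker) ((Nm.of_le le_rfl).inf (Nm.of_normal _ _)) inf_le_left with hD | hD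
  swap
  · exact Or.inr (Or.inl hD)
  have E1 := E.map hX π fun y hy e => h0 (hD ⟨hy, e⟩)
  rcases hm.alt (D := Γ ⊓ (Inn T).comap π) ((Nm.of_le le_rfl).inf (Nm.of_normal _ _))
    inf_le_left with hτ | hτ
  · left
    have E2 := E1.supN (I := Inn T) (map_mono hX) (Nm.of_normal _ _) (by
      rintro _ ⟨h1, y, hy, rfl⟩
      exact ⟨y, h0 (hτ ⟨hy, h1⟩), rfl⟩)
    refine asi_of_aut hT le_sup_right (sup_le_sup_right (map_mono hX) _) E2
      (Or.inr ⟨le_sup_right, ?_⟩)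
    refine hm.not_solvable ((QuotientGroup.mk' _).comp
      ((inclusion (le_sup_left : Γ.map π ≤ Γ.map π ⊔ Inn T)).comp (π.subgroupMap Γ))) fun y hy => ?_
    have := (QuotientGroup.eq_one_iff _).1 hy
    exact hτ ⟨y.2, this⟩
  · let V : Subgroup T := (Γ.map π).comap MulAut.conj
    have hV : AInv Γ V := fun γ hγ u hu => by
      change MulAut.conj (γ.2 u) ∈ Γ.map π
      rw [← conj_aut]
      exact mul_mem (mul_mem ⟨γ, hγ, rfl⟩ hu) (inv_mem ⟨γ, hγ, rfl⟩)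
    by_cases e : V = ⊤
    · left
      have hI : Inn T ≤ Γ.map π := by
        rintro _ ⟨t, rfl⟩
        have : t ∈ V := by rw [e]; trivial
        exact this
      refine asi_of_aut hT hI (map_mono hX) E1 (Or.inl (le_antisymm (sup_le (map_mono hX) hI) ?_))
      conv_lhs => rw [← hτ, Subgroup.map_sup]
      exact sup_le_sup (map_mono h0) (map_le_iff_le_comap.2 inf_le_right)
    · refine Or.inr (Or.inr ⟨V, fun e' => hm.lt.not_ge ?_, e, hV⟩)
      rw [← hτ]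
      refine sup_le le_rfl (le_trans ?_ hD)
      rintro y ⟨hy, t, ht⟩
      have : t ∈ V := ⟨y, hy, ht.symm⟩
      rw [e', mem_bot] at this
      refine ⟨hy, ?_⟩
      change π y = 1
      rw [← ht, this, map_one]

theorem ainv_normalizer {Γ : Subgroup (H × MulAut T)} {U : Subgroup T} (h : AInv Γ U) :
    AInv Γ (normalizer (U : Set T)) := by
  intro γ hγ n hn
  have h1 : ∀ u, u ∈ U ↔ γ.2 u ∈ U := fun u =>
    ⟨h γ hγ u, fun hu => by simpa using h γ⁻¹ (Γ.inv_mem hγ) _ hu⟩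
  rw [mem_normalizer_iff] at hn ⊢
  intro u
  obtain ⟨v, rfl⟩ := γ.2.surjective u
  rw [← h1, hn, h1]
  simp

/-- Invariant subgroups above a given one, as an interval of automorphism groups. -/
theorem asi_of_inv [Finite T] (hT : NS T) {Γ : Subgroup (H × MulAut T)} {U0 : Subgroup T}
    (h2 : ∀ t, (∃ γ ∈ Γ, γ.2 = MulAut.conj t) → t ∈ U0)
    (E : Emb Λ {U | AInv Γ U ∧ U0 ≤ U}) : ASI Λ := by
  let A : Subgroup (MulAut T) := Γ.map (MonoidHom.snd H (MulAut T))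
  have hn : ∀ U, AInv Γ U → Nm A (U.map MulAut.conj) := by
    rintro U hU _ ⟨γ, hγ, rfl⟩ _ ⟨u, hu, rfl⟩
    exact ⟨_, hU γ hγ u hu, (conj_aut _ _).symm⟩
  have hl : ∀ U : Subgroup T, U.map MulAut.conj ≤ Inn T := fun U => map_le_range _ _
  have hA : A ⊓ Inn T ≤ U0.map MulAut.conj := by
    rintro _ ⟨⟨γ, hγ, e⟩, t, rfl⟩
    exact ⟨t, h2 t ⟨γ, hγ, e⟩, rfl⟩
  refine asi_of_aut hT (G' := A ⊔ Inn T) (H' := A ⊔ U0.map MulAut.conj) le_sup_right
    (sup_le_sup_left (hl _) _) (E.trans (fun U => A ⊔ U.map MulAut.conj) _ ?_ ?_)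
    (Or.inl (by rw [sup_assoc, sup_eq_right.2 (hl _)]))
  · refine fun a ha b hb => ⟨fun h => ?_, fun h => sup_le_sup_left (map_mono h) _⟩
    have h1 : a.map MulAut.conj ≤ (A ⊔ b.map MulAut.conj) ⊓ Inn T :=
      le_inf (le_sup_right.trans h) (hl _)
    rw [(hn b hb.1).dedekind' (hl _), sup_eq_right.2 (hA.trans (map_mono hb.2))] at h1
    exact (map_le_map_iff_of_injective hT.conj_inj).1 h1
  · refine fun K => ⟨?_, fun hK => ⟨K.comap MulAut.conj, ⟨fun γ hγ u hu => ?_, ?_⟩, ?_⟩⟩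
    · rintro ⟨a, ha, rfl⟩
      exact ⟨sup_le_sup_left (map_mono ha.2) _, sup_le_sup_left (hl _) _⟩
    · have hγ' : γ.2 ∈ K := (le_sup_left.trans hK.1) ⟨γ, hγ, rfl⟩
      change MulAut.conj (γ.2 u) ∈ K
      rw [← conj_aut]
      exact mul_mem (mul_mem hγ' hu) (inv_mem hγ')
    · exact map_le_iff_le_comap.1 (le_sup_right.trans hK.1)
    · rw [map_comap_eq]
      change A ⊔ (Inn T ⊓ K) = K
      rw [← (Nm.of_normal A (Inn T)).dedekind (le_sup_left.trans hK.1), inf_eq_right.2 hK.2]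

end Vale.Agent.P183A
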