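import Mathlib.Order.Hom.Basic
import Mathlib.Order.Interval.Set.Basic
import Mathlib.Order.LatticeIntervals
import Mathlib.Data.Finset.Lattice.Fold
import Mathlib.Data.Finset.Card
import Mathlib.Data.Fintype.Basic
import Mathlib.GroupTheory.Solvable
import Mathlib.GroupTheory.Subgroup.Simple
import Mathlib.GroupTheory.Subgroup.Centralizer

/-!
Lattice conditions used in the reduction of the finite lattice representation problem to
intervals in almost simple groups.
-/

namespace Vale.Agent.P183A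

/-- `L` is an interval `[H, G]` of subgroups of a finite group. -/
def GI (L : Type) [LE L] : Prop :=
  ∃ (G : Type) (_ : Group G) (_ : Finite G) (H : Subgroup G),
    Nonempty (L ≃o {K : Subgroup G // H ≤ K})

/-- `L` is an interval `[H, G]` where `G` is a finite almost simple group with socle `T`
(`T` normal, simple, not abelian, with trivial centraliser), and either `H T = G`, or `T ≤ H` and
`G / T` is not solvable. -/
def ASI (L : Type) [LE L] : Prop :=
  ∃ (G : Type) (_ : Group G) (_ : Finite G) (T H : Subgroup G) (_ : T.Normal),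
    IsSimpleGroup T ∧ (∃ a ∈ T, ∃ b ∈ T, a * b ≠ b * a) ∧
    Subgroup.centralizer (T : Set G) = ⊥ ∧
    (H ⊔ T = ⊤ ∨ (T ≤ H ∧ ¬ Group.IsSolvable (G ⧸ T))) ∧
    Nonempty (L ≃o {K : Subgroup G // H ≤ K})

/-- An order embedding of `L` into `α` with range `S`. -/
structure Emb (L : Type) [LE L] {α : Type} [LE α] (S : Set α) where
  κ : L → α
  le_iff : ∀ a b, κ a ≤ κ b ↔ a ≤ b
  range : ∀ K, (∃ a, κ a = K) ↔ K ∈ S

/-- `w` satisfies the modular law inside the interval `[a, b]`. -/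
def ModIn {L : Type} [Lattice L] (a b w : L) : Prop :=
  ∀ y y', a ≤ y → y ≤ y' → y' ≤ b → y ⊔ (w ⊓ y') = (y ⊔ w) ⊓ y'

/-- The interval `[a, b]` has at least three elements and no modular element other than its
ends. -/
def NoMod {L : Type} [Lattice L] (a b : L) : Prop :=
  (∃ w, a < w ∧ w < b) ∧ ∀ w, a ≤ w → w ≤ b → ModIn a b w → w = a ∨ w = b

/-- The data and conditions that force a group interval to be of subdirect type. -/
structure NiceData (Λ L : Type) [Lattice Λ] [Lattice L] [BoundedOrder L] where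
  o : L
  e : L
  x : L
  s' : L
  x' : L
  s : Fin 2 → L
  c : Fin 2 → L
  nomod : NoMod (⊥ : L) ⊤
  o_ne : o ≠ ⊥
  o_le : ∀ i, o ≤ s i
  s_lt : ∀ i, s i < c i
  c_ne : ∀ i, c i ≠ ⊤
  above : ∀ i w, s i ≤ w → w = s i ∨ w = c i ∨ w = ⊤
  below : ∀ i w, w < c i → w ≤ s i
  e_eq : e = c 0 ⊓ c 1
  e_le : e ≤ x
  nomod_up : ∀ z w, x ≤ z → e ≤ w → w ≤ z → ModIn ⊥ z w → w = z
  top_emb : Emb Λ (Set.Ici x)
  o_lt : o < s'
  part : ∀ w, o ≤ w ∨ w ⊓ s' = ⊥
  nomod' : NoMod s' ⊤
  s'_le : s' ≤ x'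
  bot_emb : Emb Λᵒᵈ (Set.Icc s' x')

/-- `L` is nice for `Λ`. -/
def Nice (Λ L : Type) [Lattice Λ] [Lattice L] [BoundedOrder L] : Prop := Nonempty (NiceData Λ L)

/-- A Boolean configuration on four colours whose proper members have nice lower intervals. -/
def Conf (Λ L : Type) [Lattice Λ] [Lattice L] [BoundedOrder L] : Prop :=
  ∃ z : Finset (Fin 4) → L, Monotone z ∧
    (∀ I : Finset (Fin 4), I.Nonempty → z I = I.sup fun i => z {i}) ∧ z Finset.univ = ⊤ ∧
    ∀ I : Finset (Fin 4), I.card ≤ 3 → z I ≠ ⊤ ∧ Nice Λ (Set.Iic (z I))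

/-- The self-dual condition used in the descent. -/
def Good (Λ L : Type) [Lattice Λ] [Lattice L] [BoundedOrder L] : Prop :=
  Nice Λ L ∧ Nice Λ Lᵒᵈ ∧ Conf Λ L ∧ Conf Λ Lᵒᵈ

end Vale.Agent.P183A
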