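import Mathlib.GroupTheory.Commutator.Basic
import Mathlib.GroupTheory.Subgroup.Centralizer
import Mathlib.Algebra.Group.Subgroup.Pointwise
import Mathlib.Tactic.Group

/-!
Toolkit: subgroups normalising or centralising other subgroups.
-/

namespace Vale.Agent.P183A

open Subgroup
open scoped commutatorElement

variable {G : Type} [Group G]

/-- `A` normalises `Y`. -/
def Nm (A Y : Subgroup G) : Prop := ∀ a ∈ A, ∀ y ∈ Y, a * y * a⁻¹ ∈ Y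

/-- `A` centralises `Y`. -/
def Cm (A Y : Subgroup G) : Prop := ∀ a ∈ A, ∀ y ∈ Y, a * y = y * a

theorem nm_iff {A Y : Subgroup G} : Nm A Y ↔ A ≤ normalizer (Y : Set G) := le_normalizer_iff.symm

theorem cm_iff {A Y : Subgroup G} : Cm A Y ↔ A ≤ centralizer (Y : Set G) :=
  ⟨fun h _ ha => mem_centralizer_iff.2 fun y hy => (h _ ha y hy).symm,
    fun h _ ha y hy => (mem_centralizer_iff.1 (h ha) y hy).symm⟩

theorem cm_iff_comm {A Y : Subgroup G} : Cm A Y ↔ ⁅A, Y⁆ = ⊥ :=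
  cm_iff.trans commutator_eq_bot_iff_le_centralizer.symm

theorem Cm.symm {A Y : Subgroup G} (h : Cm A Y) : Cm Y A := fun y hy a ha => (h a ha y hy).symm

theorem Cm.mono {A Y A' Y' : Subgroup G} (h : Cm A Y) (hA : A' ≤ A) (hY : Y' ≤ Y) : Cm A' Y' :=
  fun a ha y hy => h a (hA ha) y (hY hy)

theorem Cm.nm {A Y : Subgroup G} (h : Cm A Y) : Nm A Y := fun a ha y hy => by
  rw [h a ha y hy]; simpa using hy

theorem Cm.sup {A B Y : Subgroup G} (h : Cm A Y) (h' : Cm B Y) : Cm (A ⊔ B) Y :=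
  cm_iff.2 (sup_le (cm_iff.1 h) (cm_iff.1 h'))

theorem Cm.sSup {S : Set (Subgroup G)} {Y : Subgroup G} (h : ∀ A ∈ S, Cm A Y) : Cm (sSup S) Y :=
  cm_iff.2 (sSup_le fun A hA => cm_iff.1 (h A hA))

theorem Cm.iSup {ι : Sort*} {S : ι → Subgroup G} {Y : Subgroup G} (h : ∀ i, Cm (S i) Y) :
    Cm (⨆ i, S i) Y :=
  cm_iff.2 (iSup_le fun i => cm_iff.1 (h i))

theorem cm_centralizer (Y : Subgroup G) : Cm (centralizer (Y : Set G)) Y := cm_iff.2 le_rfl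

theorem Nm.mono {A A' Y : Subgroup G} (h : Nm A Y) (hA : A' ≤ A) : Nm A' Y :=
  fun a ha => h a (hA ha)

theorem Nm.of_le {A Y : Subgroup G} (h : A ≤ Y) : Nm A Y := fun _ ha _ hy =>
  Y.mul_mem (Y.mul_mem (h ha) hy) (Y.inv_mem (h ha))

theorem Nm.of_normal (A Y : Subgroup G) [hY : Y.Normal] : Nm A Y := fun a _ y hy =>
  hY.conj_mem y hy a

theorem Nm.normal {Y : Subgroup G} (h : Nm ⊤ Y) : Y.Normal := ⟨fun y hy a => h a trivial y hy⟩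

theorem Nm.sup_left {A B Y : Subgroup G} (h : Nm A Y) (h' : Nm B Y) : Nm (A ⊔ B) Y :=
  nm_iff.2 (sup_le (nm_iff.1 h) (nm_iff.1 h'))

theorem Nm.sSup_left {S : Set (Subgroup G)} {Y : Subgroup G} (h : ∀ A ∈ S, Nm A Y) :
    Nm (sSup S) Y :=
  nm_iff.2 (sSup_le fun A hA => nm_iff.1 (h A hA))

theorem Nm.iSup_left {ι : Sort*} {S : ι → Subgroup G} {Y : Subgroup G} (h : ∀ i, Nm (S i) Y) :
    Nm (⨆ i, S i) Y :=
  nm_iff.2 (iSup_le fun i => nm_iff.1 (h i))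

theorem Nm.inf {A X Y : Subgroup G} (h : Nm A X) (h' : Nm A Y) : Nm A (X ⊓ Y) :=
  fun a ha y hy => ⟨h a ha y hy.1, h' a ha y hy.2⟩

theorem Nm.sup {A X Y : Subgroup G} (h : Nm A X) (h' : Nm A Y) : Nm A (X ⊔ Y) :=
  nm_iff.2 ((le_inf (nm_iff.1 h) (nm_iff.1 h')).trans
    (normalizer_inf_normalizer_le_normalizer_sup X Y))

theorem Nm.sSup {A : Subgroup G} {S : Set (Subgroup G)} (h : ∀ X ∈ S, Nm A X) : Nm A (sSup S) := by
  rw [sSup_eq_iSup']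
  exact nm_iff.2 ((le_iInf fun X : S => nm_iff.1 (h X.1 X.2)).trans
    (iInf_normalizer_le_normalizer_iSup fun X : S => X.1))

theorem Nm.iSup {ι : Sort*} {A : Subgroup G} {S : ι → Subgroup G} (h : ∀ i, Nm A (S i)) :
    Nm A (⨆ i, S i) :=
  nm_iff.2 ((le_iInf fun i => nm_iff.1 (h i)).trans (iInf_normalizer_le_normalizer_iSup S))

theorem Nm.sInf {A : Subgroup G} {S : Set (Subgroup G)} (h : ∀ X ∈ S, Nm A X) : Nm A (sInf S) :=
  fun a ha y hy => mem_sInf.2 fun X hX => h X hX a ha y (mem_sInf.1 hy X hX)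

theorem Nm.centralizer {A Y : Subgroup G} (h : Nm A Y) : Nm A (centralizer (Y : Set G)) := by
  intro a ha c hc
  rw [mem_centralizer_iff] at hc ⊢
  intro y hy
  have h1 := hc _ (h a⁻¹ (A.inv_mem ha) y hy)
  calc y * (a * c * a⁻¹) = a * (a⁻¹ * y * a⁻¹⁻¹ * c) * a⁻¹ := by group
    _ = a * (c * (a⁻¹ * y * a⁻¹⁻¹)) * a⁻¹ := by rw [h1]
    _ = a * c * a⁻¹ * y := by group

theorem Nm.comm {A X Y : Subgroup G} (h : Nm A X) (h' : Nm A Y) : Nm A ⁅X, Y⁆ := by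
  rw [nm_iff, Subgroup.commutator_def, le_normalizer_closure_iff]
  rintro a ha _ ⟨x, hx, y, hy, rfl⟩
  rw [conjugate_commutatorElement]
  exact commutator_mem_commutator (h a ha x hx) (h' a ha y hy)

theorem Nm.comm_le_right {A Y : Subgroup G} (h : Nm A Y) : ⁅A, Y⁆ ≤ Y :=
  le_normalizer_iff_commutator_le_right.1 (nm_iff.1 h)

theorem Nm.comm_le_left {A Y : Subgroup G} (h : Nm A Y) : ⁅Y, A⁆ ≤ Y :=
  le_normalizer_iff_commutator_le_left.1 (nm_iff.1 h)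

theorem Nm.of_comm_le {A Y : Subgroup G} (h : ⁅A, Y⁆ ≤ Y) : Nm A Y :=
  nm_iff.2 (le_normalizer_iff_commutator_le_right.2 h)

theorem Nm.mem_sup {A Y : Subgroup G} (h : Nm A Y) {g : G} :
    g ∈ A ⊔ Y ↔ ∃ a ∈ A, ∃ y ∈ Y, a * y = g := by
  rw [← SetLike.mem_coe, coe_mul_of_left_le_normalizer_right A Y (nm_iff.1 h)]
  rfl

theorem Nm.mem_sup' {A Y : Subgroup G} (h : Nm A Y) {g : G} :
    g ∈ A ⊔ Y ↔ ∃ y ∈ Y, ∃ a ∈ A, y * a = g := by
  rw [sup_comm, ← SetLike.mem_coe, coe_mul_of_right_le_normalizer_left Y A (nm_iff.1 h)]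
  rfl

/-- Dedekind's law, first form. -/
theorem Nm.dedekind {A Y C : Subgroup G} (h : Nm A Y) (hAC : A ≤ C) :
    (A ⊔ Y) ⊓ C = A ⊔ (Y ⊓ C) := by
  refine le_antisymm ?_ (sup_le (le_inf le_sup_left hAC) (inf_le_inf_right _ le_sup_right))
  rintro g ⟨hg, hgC⟩
  obtain ⟨a, ha, y, hy, rfl⟩ := h.mem_sup.1 hg
  refine mul_mem (mem_sup_left ha) (mem_sup_right ⟨hy, ?_⟩)
  simpa using C.mul_mem (C.inv_mem (hAC ha)) hgC

/-- Dedekind's law, second form. -/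
theorem Nm.dedekind' {A Y C : Subgroup G} (h : Nm A Y) (hYC : Y ≤ C) :
    (A ⊔ Y) ⊓ C = (A ⊓ C) ⊔ Y := by
  refine le_antisymm ?_ (sup_le (inf_le_inf_right _ le_sup_left) (le_inf le_sup_right hYC))
  rintro g ⟨hg, hgC⟩
  obtain ⟨a, ha, y, hy, rfl⟩ := h.mem_sup.1 hg
  refine mul_mem (mem_sup_left ⟨ha, ?_⟩) (mem_sup_right hy)
  simpa using C.mul_mem hgC (C.inv_mem (hYC hy))

theorem comm_sup_sup {A B X : Subgroup G} (hA : Nm A X) (hB : Nm B X) :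
    ⁅A ⊔ X, B ⊔ X⁆ ≤ ⁅A, B⁆ ⊔ X := by
  rw [commutator_le]
  intro g hg g' hg'
  obtain ⟨a, ha, x, hx, rfl⟩ := hA.mem_sup.1 hg
  obtain ⟨b, hb, x', hx', rfl⟩ := hB.mem_sup.1 hg'
  have h1 : ⁅a * x, b * x'⁆ =
      (a * (x * (b * (x' * x⁻¹) * b⁻¹)) * a⁻¹) * (a * (b * (a⁻¹ * x'⁻¹ * a⁻¹⁻¹) * b⁻¹) * a⁻¹) *
        ⁅a, b⁆ := by
    simp only [commutatorElement_def]; group
  rw [h1]
  refine mul_mem (mem_sup_right (X.mul_mem ?_ ?_)) (mem_sup_left (commutator_mem_commutator ha hb))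
  · exact hA a ha _ (X.mul_mem hx (hB b hb _ (X.mul_mem hx' (X.inv_mem hx))))
  · exact hA a ha _ (hB b hb _ (hA a⁻¹ (A.inv_mem ha) _ (X.inv_mem hx')))

theorem comm_sup_cm {J P O : Subgroup G} (hJ : Cm J O) (hP : Nm P O) : ⁅J, P ⊔ O⁆ ≤ ⁅J, P⁆ := by
  rw [commutator_le]
  intro j hj g hg
  obtain ⟨p, hp, o, ho, rfl⟩ := hP.mem_sup.1 hg
  have h0 := hJ j⁻¹ (J.inv_mem hj) o ho
  have h1 : ⁅j, p * o⁆ = ⁅j, p⁆ := by
    simp only [commutatorElement_def]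
    calc j * (p * o) * j⁻¹ * (p * o)⁻¹ = j * p * (o * j⁻¹) * o⁻¹ * p⁻¹ := by group
      _ = j * p * (j⁻¹ * o) * o⁻¹ * p⁻¹ := by rw [h0]
      _ = _ := by group
  rw [h1]
  exact commutator_mem_commutator hj hp

theorem comm_sup_cm' {J P O : Subgroup G} (hJ : Cm J O) (hP : Nm O P) :
    ⁅J, O ⊔ P⁆ ≤ ⁅J, P⁆ := by
  rw [commutator_le]
  intro j hj g hg
  obtain ⟨p, hp, o, ho, rfl⟩ := hP.mem_sup'.1 hg
  have h0 := hJ j⁻¹ (J.inv_mem hj) o ho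
  have h1 : ⁅j, p * o⁆ = ⁅j, p⁆ := by
    simp only [commutatorElement_def]
    calc j * (p * o) * j⁻¹ * (p * o)⁻¹ = j * p * (o * j⁻¹) * o⁻¹ * p⁻¹ := by group
      _ = j * p * (j⁻¹ * o) * o⁻¹ * p⁻¹ := by rw [h0]
      _ = _ := by group
  rw [h1]
  exact commutator_mem_commutator hj hp

/-- The three subgroups lemma in the form used for perfect groups. -/
theorem three {Y J : Subgroup G} (h : Cm ⁅Y, J⁆ J) : Cm ⁅J, J⁆ Y := by
  rw [cm_iff_comm] at h ⊢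
  exact commutator_commutator_eq_bot_of_rotate (by rw [commutator_comm J Y]; exact h) h

theorem comm_sSup_left_le {N W V : Subgroup G} {S : Set (Subgroup G)} (hW : Nm N W)
    (hS : ∀ U ∈ S, U ≤ N) (h : ∀ U ∈ S, ⁅U, V⁆ ≤ W) : ⁅sSup S, V⁆ ≤ W := by
  let P : Subgroup G :=
    { carrier := {g | g ∈ N ∧ ∀ v ∈ V, ⁅g, v⁆ ∈ W}
      one_mem' := ⟨N.one_mem, fun v _ => by simp⟩
      mul_mem' := by
        rintro a b ⟨ha, ha'⟩ ⟨hb, hb'⟩
        refine ⟨N.mul_mem ha hb, fun v hv => ?_⟩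
        have : ⁅a * b, v⁆ = a * ⁅b, v⁆ * a⁻¹ * ⁅a, v⁆ := by
          simp only [commutatorElement_def]; group
        rw [this]
        exact W.mul_mem (hW a ha _ (hb' v hv)) (ha' v hv)
      inv_mem' := by
        rintro a ⟨ha, ha'⟩
        refine ⟨N.inv_mem ha, fun v hv => ?_⟩
        have : ⁅a⁻¹, v⁆ = a⁻¹ * ⁅a, v⁆⁻¹ * a⁻¹⁻¹ := by
          simp only [commutatorElement_def]; group
        rw [this]
        exact hW a⁻¹ (N.inv_mem ha) _ (W.inv_mem (ha' v hv)) }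
  have hP : sSup S ≤ P := sSup_le fun U hU g hg =>
    ⟨hS U hU hg, fun v hv => h U hU (commutator_mem_commutator hg hv)⟩
  rw [commutator_le]
  exact fun g hg v hv => (hP hg).2 v hv

theorem comm_sSup_le {N W : Subgroup G} {S S' : Set (Subgroup G)} (hW : Nm N W)
    (hS : ∀ U ∈ S, U ≤ N) (hS' : ∀ V ∈ S', V ≤ N) (h : ∀ U ∈ S, ∀ V ∈ S', ⁅U, V⁆ ≤ W) :
    ⁅sSup S, sSup S'⁆ ≤ W := by
  refine comm_sSup_left_le hW hS fun U hU => ?_
  rw [commutator_comm]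
  exact comm_sSup_left_le hW hS' fun V hV => by rw [commutator_comm]; exact h U hU V hV

end Vale.Agent.P183A
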