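import Vale.Agent.P183A.Basic
import Vale.Agent.P183A.Tk

/-!
Transport of intervals.
-/

namespace Vale.Agent.P183A

open Subgroup

section order

variable {Λ L α β : Type}

theorem Emb.inj [PartialOrder L] [PartialOrder α] {S : Set α} (E : Emb L S) {a b : L}
    (h : E.κ a = E.κ b) : a = b :=
  le_antisymm ((E.le_iff _ _).1 h.le) ((E.le_iff _ _).1 h.ge)

theorem Emb.mem [LE L] [LE α] {S : Set α} (E : Emb L S) (a : L) : E.κ a ∈ S :=
  (E.range _).1 ⟨a, rfl⟩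

theorem Emb.lt_iff [PartialOrder L] [PartialOrder α] {S : Set α} (E : Emb L S) {a b : L} :
    E.κ a < E.κ b ↔ a < b := by
  rw [lt_iff_le_not_ge, lt_iff_le_not_ge, E.le_iff, E.le_iff]

theorem Emb.map_inf [Lattice L] [Lattice α] {S : Set α} (E : Emb L S) (a b : L)
    (h : E.κ a ⊓ E.κ b ∈ S) : E.κ (a ⊓ b) = E.κ a ⊓ E.κ b := by
  obtain ⟨c, hc⟩ := (E.range _).2 h
  refine le_antisymm (le_inf ((E.le_iff _ _).2 inf_le_left) ((E.le_iff _ _).2 inf_le_right)) ?_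
  rw [← hc, E.le_iff]
  exact le_inf ((E.le_iff _ _).1 (hc.le.trans inf_le_left))
    ((E.le_iff _ _).1 (hc.le.trans inf_le_right))

theorem Emb.map_sup [Lattice L] [Lattice α] {S : Set α} (E : Emb L S) (a b : L)
    (h : E.κ a ⊔ E.κ b ∈ S) : E.κ (a ⊔ b) = E.κ a ⊔ E.κ b := by
  obtain ⟨c, hc⟩ := (E.range _).2 h
  refine le_antisymm ?_ (sup_le ((E.le_iff _ _).2 le_sup_left) ((E.le_iff _ _).2 le_sup_right))
  rw [← hc, E.le_iff]
  exact sup_le ((E.le_iff _ _).1 (le_sup_left.trans hc.ge))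
    ((E.le_iff _ _).1 (le_sup_right.trans hc.ge))

/-- Composition with a map that is an isomorphism from `S` onto `S'`. -/
def Emb.trans [LE Λ] [LE α] [LE β] {S : Set α} (E : Emb Λ S) (f : α → β) (S' : Set β)
    (hle : ∀ a ∈ S, ∀ b ∈ S, f a ≤ f b ↔ a ≤ b) (hr : ∀ K, (∃ a ∈ S, f a = K) ↔ K ∈ S') :
    Emb Λ S' where
  κ a := f (E.κ a)
  le_iff a b := (hle _ (E.mem a) _ (E.mem b)).trans (E.le_iff a b)
  range K := by
    rw [← hr]
    constructor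
    · rintro ⟨a, rfl⟩
      exact ⟨_, E.mem a, rfl⟩
    · rintro ⟨a, ha, rfl⟩
      obtain ⟨b, rfl⟩ := (E.range _).2 ha
      exact ⟨b, rfl⟩

/-- Composition with a map that is an anti-isomorphism from `S` onto `S'`. -/
def Emb.transAnti [LE Λ] [LE α] [LE β] {S : Set α} (E : Emb Λ S) (f : α → β) (S' : Set β)
    (hle : ∀ a ∈ S, ∀ b ∈ S, f a ≤ f b ↔ b ≤ a) (hr : ∀ K, (∃ a ∈ S, f a = K) ↔ K ∈ S') :
    Emb Λᵒᵈ S' where
  κ a := f (E.κ (OrderDual.ofDual a))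
  le_iff a b := (hle _ (E.mem _) _ (E.mem _)).trans (E.le_iff _ _)
  range K := by
    rw [← hr]
    constructor
    · rintro ⟨a, rfl⟩
      exact ⟨_, E.mem _, rfl⟩
    · rintro ⟨a, ha, rfl⟩
      obtain ⟨b, rfl⟩ := (E.range _).2 ha
      exact ⟨OrderDual.toDual b, rfl⟩

/-- Removing a double dual. -/
def Emb.undual [LE Λ] [LE α] {S : Set α} (E : Emb Λᵒᵈᵒᵈ S) : Emb Λ S := ⟨E.κ, E.le_iff, E.range⟩

/-- The identity embedding of an interval. -/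
def Emb.self [Preorder α] (S : Set α) : Emb S S where
  κ a := a.1
  le_iff _ _ := Iff.rfl
  range K := ⟨fun ⟨a, h⟩ => h ▸ a.2, fun h => ⟨⟨K, h⟩, rfl⟩⟩

theorem NoMod.lt [Lattice L] {a b : L} (h : NoMod a b) : a < b :=
  let ⟨_, h1, h2⟩ := h.1
  h1.trans h2

theorem NoMod.of_iso [Lattice L] [Lattice β] {a b : L} {a' b' : β} (h : NoMod a b) (f : L → β)
    (hle : ∀ x ∈ Set.Icc a b, ∀ y ∈ Set.Icc a b, f x ≤ f y ↔ x ≤ y)
    (hr : ∀ K, (∃ x ∈ Set.Icc a b, f x = K) ↔ K ∈ Set.Icc a' b') : NoMod a' b' := by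
  let E : Emb (Set.Icc a b) (Set.Icc a' b') := (Emb.self _).trans f _ hle hr
  have hab := h.lt.le
  have ha : E.κ ⟨a, le_rfl, hab⟩ = a' := by
    obtain ⟨x, hx⟩ := (E.range a').2 ⟨le_rfl, (E.mem ⟨a, le_rfl, hab⟩).1.trans (E.mem _).2⟩
    exact le_antisymm (((E.le_iff _ x).2 x.2.1).trans hx.le) (E.mem _).1
  have hb : E.κ ⟨b, hab, le_rfl⟩ = b' := by
    obtain ⟨x, hx⟩ := (E.range b').2 ⟨(E.mem ⟨a, le_rfl, hab⟩).1.trans (E.mem _).2, le_rfl⟩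
    exact le_antisymm (E.mem _).2 (hx.ge.trans ((E.le_iff x _).2 x.2.2))
  have hi : ∀ x y, E.κ (x ⊓ y) = E.κ x ⊓ E.κ y := fun x y => E.map_inf x y
    ⟨le_inf (E.mem x).1 (E.mem y).1, inf_le_left.trans (E.mem x).2⟩
  have hs : ∀ x y, E.κ (x ⊔ y) = E.κ x ⊔ E.κ y := fun x y => E.map_sup x y
    ⟨(E.mem x).1.trans le_sup_left, sup_le (E.mem x).2 (E.mem y).2⟩
  refine ⟨?_, fun w h1 h2 hm => ?_⟩
  · obtain ⟨w, h1, h2⟩ := h.1
    refine ⟨E.κ ⟨w, h1.le, h2.le⟩, ?_, ?_⟩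
    · exact ha.ge.trans_lt (E.lt_iff.2 h1)
    · exact (E.lt_iff.2 h2).trans_le hb.le
  · obtain ⟨x, rfl⟩ := (E.range w).2 ⟨h1, h2⟩
    rcases h.2 x.1 x.2.1 x.2.2 (fun y y' g1 g2 g3 => by
      have := hm (E.κ ⟨y, g1, g2.trans g3⟩) (E.κ ⟨y', g1.trans g2, g3⟩) (E.mem _).1
        ((E.le_iff _ _).2 g2) (E.mem _).2
      rw [← hi, ← hs, ← hs, ← hi] at this
      exact congrArg Subtype.val (E.inj this)) with e | e
    · exact Or.inl ((congrArg E.κ (Subtype.ext e)).trans ha)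
    · exact Or.inr ((congrArg E.κ (Subtype.ext e)).trans hb)

theorem NoMod.dual [Lattice L] {a b : L} (h : NoMod a b) :
    NoMod (OrderDual.toDual b) (OrderDual.toDual a) := by
  refine ⟨?_, fun w h1 h2 hm => ?_⟩
  · obtain ⟨w, h1, h2⟩ := h.1
    exact ⟨OrderDual.toDual w, h2, h1⟩
  · refine (h.2 (OrderDual.ofDual w) h2 h1 fun y y' g1 g2 g3 => ?_).symm
    have : y' ⊓ (OrderDual.ofDual w ⊔ y) = (y' ⊓ OrderDual.ofDual w) ⊔ y :=
      hm (OrderDual.toDual y') (OrderDual.toDual y) g3 g2 g1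
    rw [inf_comm (y ⊔ _), sup_comm y (OrderDual.ofDual w), this, sup_comm y, inf_comm]

theorem NoMod.of_anti [Lattice L] [Lattice β] {a b : L} {a' b' : β} (h : NoMod a b) (f : L → β)
    (hle : ∀ x ∈ Set.Icc a b, ∀ y ∈ Set.Icc a b, f x ≤ f y ↔ y ≤ x)
    (hr : ∀ K, (∃ x ∈ Set.Icc a b, f x = K) ↔ K ∈ Set.Icc a' b') : NoMod a' b' := by
  refine h.dual.of_iso (fun x => f (OrderDual.ofDual x)) (fun x hx y hy => ?_) fun K => ?_
  · exact hle _ ⟨hx.2, hx.1⟩ _ ⟨hy.2, hy.1⟩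
  · rw [← hr]
    exact ⟨fun ⟨x, hx, e⟩ => ⟨_, ⟨hx.2, hx.1⟩, e⟩, fun ⟨x, hx, e⟩ => ⟨_, ⟨hx.2, hx.1⟩, e⟩⟩

end order

variable {G G' : Type} [Group G] [Group G'] {Λ : Type} [LE Λ]

theorem modIn_of_nm {X Y D : Subgroup G} (hD : Nm Y D) : ModIn X Y (X ⊔ D) := by
  intro y y' h1 h2 h3
  refine le_antisymm (sup_le (le_inf le_sup_left h2) (inf_le_inf_right _ le_sup_right)) ?_
  rw [← sup_assoc, sup_eq_left.2 h1, (hD.mono (h2.trans h3)).dedekind h2]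
  exact sup_le_sup_left (inf_le_inf_right _ le_sup_right) _

theorem NoMod.alt {X Y D : Subgroup G} (h : NoMod X Y) (hD : Nm Y D) (hle : D ≤ Y) :
    D ≤ X ∨ X ⊔ D = Y :=
  (h.2 _ le_sup_left (sup_le h.lt.le hle) (modIn_of_nm hD)).imp_left fun e => sup_eq_left.1 e

theorem NoMod.not_comm {X Y N C : Subgroup G} (h : NoMod X Y) (hN : Nm Y N) (hNY : N ≤ Y)
    (hC : Nm Y C) (hCY : C ≤ Y) (hNX : ¬ N ≤ X) (hCX : ¬ C ≤ X) : ¬ ⁅C, N⁆ ≤ X := by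
  intro hc
  obtain ⟨w, h1, h2⟩ := h.1
  have e1 := (h.alt hN hNY).resolve_left hNX
  have e2 := (h.alt hC hCY).resolve_left hCX
  have h3 : Nm Y (N ⊓ w) := by
    rw [← e2]
    refine Nm.sup_left ((hN.mono h.lt.le).inf (Nm.of_le h1.le)) (Nm.of_comm_le ?_)
    exact le_inf ((commutator_mono le_rfl inf_le_left).trans (hN.mono hCY).comm_le_right)
      ((commutator_mono le_rfl inf_le_left).trans (hc.trans h1.le))
  have h4 : w = X ⊔ (N ⊓ w) := by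
    rw [← (hN.mono h.lt.le).dedekind h1.le, e1, inf_eq_right.2 h2.le]
  rcases h.alt h3 (inf_le_left.trans hNY) with e | e
  · exact h1.ne' (h4.trans (sup_eq_left.2 e))
  · exact h2.ne (h4.trans e)

theorem NoMod.not_solvable {X Y : Subgroup G} (h : NoMod X Y) (ψ : Y →* G')
    (hψ : ∀ y, ψ y = 1 → y.1 ∈ X) : ¬ Group.IsSolvable G' := by
  rintro ⟨n, hn⟩
  let D : ℕ → Subgroup G := fun n => (derivedSeries Y n).map Y.subtype
  have hD : ∀ n, D n ≤ Y ∧ Nm Y (D n) := fun n => ⟨map_subtype_le _, by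
    rintro a ha _ ⟨y, hy, rfl⟩
    exact ⟨_, (derivedSeries_normal Y n).conj_mem y hy ⟨a, ha⟩, rfl⟩⟩
  have key : ∀ n, ¬ D n ≤ X := by
    intro n
    induction n with
    | zero =>
      intro c
      refine h.lt.not_ge fun y hy => c ⟨⟨y, hy⟩, trivial, rfl⟩
    | succ n ih =>
      have : D (n + 1) = ⁅D n, D n⁆ := by simp only [D, derivedSeries_succ, map_commutator]
      rw [this]
      exact h.not_comm (hD n).2 (hD n).1 (hD n).2 (hD n).1 ih ih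
  refine key n ?_
  rintro _ ⟨y, hy, rfl⟩
  refine hψ y ?_
  have := map_derivedSeries_le_derivedSeries ψ n ⟨y, hy, rfl⟩
  rwa [hn] at this

theorem map_icc_le (φ : G →* G') {X Y : Subgroup G} (hk : ∀ y ∈ Y, φ y = 1 → y ∈ X) :
    ∀ a ∈ Set.Icc X Y, ∀ b ∈ Set.Icc X Y, a.map φ ≤ b.map φ ↔ a ≤ b := by
  refine fun a ha b hb => ⟨fun h g hg => ?_, fun h => map_mono h⟩
  obtain ⟨g', hg', e⟩ := h ⟨g, hg, rfl⟩
  have : g'⁻¹ * g ∈ X := hk _ (mul_mem (inv_mem (hb.2 hg')) (ha.2 hg)) (by simp [e])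
  simpa using b.mul_mem hg' (hb.1 this)

theorem map_icc_range (φ : G →* G') {X Y : Subgroup G} (hXY : X ≤ Y) (K : Subgroup G') :
    (∃ a ∈ Set.Icc X Y, a.map φ = K) ↔ K ∈ Set.Icc (X.map φ) (Y.map φ) := by
  constructor
  · rintro ⟨a, ha, rfl⟩
    exact ⟨map_mono ha.1, map_mono ha.2⟩
  · intro hK
    refine ⟨K.comap φ ⊓ Y, ⟨le_inf (map_le_iff_le_comap.1 hK.1) hXY, inf_le_right⟩, ?_⟩
    refine le_antisymm (map_le_iff_le_comap.2 inf_le_left) fun k hk => ?_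
    obtain ⟨y, hy, rfl⟩ := hK.2 hk
    exact ⟨y, ⟨hk, hy⟩, rfl⟩

/-- Images of intervals under homomorphisms. -/
def Emb.map {X Y : Subgroup G} (E : Emb Λ (Set.Icc X Y)) (hXY : X ≤ Y) (φ : G →* G')
    (hk : ∀ y ∈ Y, φ y = 1 → y ∈ X) : Emb Λ (Set.Icc (X.map φ) (Y.map φ)) :=
  E.trans (Subgroup.map φ) _ (map_icc_le φ hk) (map_icc_range φ hXY)

/-- Joining an interval with a normal subgroup. -/
def Emb.supN {X Y I : Subgroup G} (E : Emb Λ (Set.Icc X Y)) (hXY : X ≤ Y) (hI : Nm Y I)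
    (hk : I ⊓ Y ≤ X) : Emb Λ (Set.Icc (X ⊔ I) (Y ⊔ I)) := by
  refine E.trans (fun K => K ⊔ I) _ (fun a ha b hb => ⟨fun h => ?_, fun h => sup_le_sup_right h _⟩)
    fun K => ⟨?_, fun hK => ?_⟩
  · have h1 : a ≤ (b ⊔ I) ⊓ Y := le_inf (le_sup_left.trans h) ha.2
    rw [(hI.mono hb.2).dedekind hb.2] at h1
    exact h1.trans (sup_le le_rfl (hk.trans hb.1))
  · rintro ⟨a, ha, rfl⟩
    exact ⟨sup_le_sup_right ha.1 _, sup_le_sup_right ha.2 _⟩
  · refine ⟨Y ⊓ K, ⟨le_inf hXY (le_sup_left.trans hK.1), inf_le_left⟩, ?_⟩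
    rw [← hI.dedekind' (le_sup_right.trans hK.1), inf_eq_right.2 hK.2]

/-- An interval `[X, Y]` as an upper interval of the group `Y`. -/
def Emb.sub {X Y : Subgroup G} (E : Emb Λ (Set.Icc X Y)) (hXY : X ≤ Y) :
    Emb Λ (Set.Ici (X.subgroupOf Y)) := by
  refine E.trans (fun K => K.subgroupOf Y) _
    (fun a ha b _ => ⟨fun h g hg => h (x := ⟨g, ha.2 hg⟩) hg, fun h => comap_mono h⟩)
    fun K => ⟨?_, fun hK => ?_⟩
  · rintro ⟨a, ha, rfl⟩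
    exact comap_mono ha.1
  · refine ⟨K.map Y.subtype, ⟨fun g hg => ⟨⟨g, hXY hg⟩, hK hg, rfl⟩, map_subtype_le _⟩, ?_⟩
    exact comap_map_eq_self_of_injective Y.subtype_injective K

/-- The order isomorphism given by an embedding. -/
noncomputable def Emb.iso {α : Type} [PartialOrder α] {L : Type} [PartialOrder L] {S : Set α}
    (E : Emb L S) : L ≃o S :=
  RelIso.ofSurjective
    (OrderEmbedding.ofMapLEIff (fun a => (⟨E.κ a, E.mem a⟩ : S)) E.le_iff) fun K =>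
      let ⟨a, ha⟩ := (E.range K.1).2 K.2
      ⟨a, Subtype.ext ha⟩

/-- The embedding given by an order isomorphism. -/
def Emb.ofIso {α : Type} [LE α] {L : Type} [LE L] {S : Set α} (e : L ≃o S) : Emb L S where
  κ a := (e a).1
  le_iff _ _ := e.le_iff_le
  range K := ⟨fun ⟨a, h⟩ => h ▸ (e a).2, fun h => ⟨e.symm ⟨K, h⟩, by simp⟩⟩

end Vale.Agent.P183A
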