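import Vale.Agent.P183A.Semi
import Mathlib.Data.Finset.Card
import Mathlib.Data.Fintype.Basic
import Mathlib.Data.Set.Finite.Basic

/-!
The local-to-global lemma: semisimple groups that fit together three at a time above a common
subdirect subgroup generate a group in which that subgroup is self-normalising modulo the centre.
-/

namespace Vale.Agent.P183A

open Subgroup
open scoped commutatorElement

variable {G : Type} [Group G] {ι : Type} [DecidableEq ι]

/-- The hypotheses of the local-to-global lemma. -/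
structure Sys (E : Finset ι → Subgroup G) (S : Finset ι → Set (Subgroup G)) : Prop where
  semi : ∀ I : Finset ι, I.card ≤ 3 → Semi (E I) (S I)
  mono : ∀ I I' : Finset ι, I ⊆ I' → I'.card ≤ 3 → E I ≤ E I'
  subd : ∀ I : Finset ι, I.card ≤ 3 → Subd (E ∅) (E I) (S I)
  pair : ∀ i j : ι, E {i, j} ≤ E {i} ⊔ E {j}

omit [DecidableEq ι] in
theorem card1 (i : ι) : ({i} : Finset ι).card ≤ 3 := by simp
theorem card2 (i j : ι) : ({i, j} : Finset ι).card ≤ 3 := Finset.card_le_two.trans (by decide)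
theorem card3 (i j k : ι) : ({i, j, k} : Finset ι).card ≤ 3 := Finset.card_le_three

/-- The closure of a component `J` of `E {i}`. -/
def gcl (S : Finset ι → Set (Subgroup G)) (i : ι) (J : Subgroup G) : Subgroup G :=
  ⨆ j, cl (S {i, j}) J

namespace Sys

variable {E : Finset ι → Subgroup G} {S : Finset ι → Set (Subgroup G)}

theorem gcl_le (h : Sys E S) (i : ι) (J : Subgroup G) : gcl S i J ≤ ⨆ i, E {i} :=
  iSup_le fun j => ((h.semi _ (card2 i j)).cl_le J).trans ((h.pair i j).trans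
    (sup_le (le_iSup (fun i => E {i}) i) (le_iSup (fun i => E {i}) j)))

theorem le_gcl (h : Sys E S) (i : ι) {J : Subgroup G} (hJ : J ∈ S {i}) : J ≤ gcl S i J := by
  refine le_trans ?_ (le_iSup (fun j => cl (S {i, j}) J) i)
  have h1 := h.semi _ (card1 i)
  exact (h.semi _ (card2 i i)).le_cl ((h1.le J hJ).trans (h.mono _ _ (by simp) (card2 i i)))
    (h1.perf J hJ)

theorem gcl_cm (h : Sys E S) (i : ι) {J J' : Subgroup G} (hJ : J ∈ S {i}) (hJ' : J' ∈ S {i})
    (hne : J ≠ J') : Cm (gcl S i J) (gcl S i J') := by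
  refine Cm.iSup fun j => (Cm.iSup fun k => Cm.symm ?_).symm
  have h1 := h.semi _ (card1 i)
  have h3 := h.semi _ (card3 i j k)
  have l1 : E {i} ≤ E {i, j, k} := h.mono _ _ (by simp) (card3 i j k)
  have c := h3.cl_cm h1 l1 ((h.subd _ (card3 i j k)).mono (h.mono _ _ (by simp) (card1 i))) hJ hJ' hne
  refine c.mono ?_ ?_
  · exact h3.cl_mono (h.semi _ (card2 i j))
      (h.mono _ _ (by intro a; simp; tauto) (card3 i j k))
      ((h1.le J hJ).trans (h.mono _ _ (by simp) (card2 i j)))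
  · exact h3.cl_mono (h.semi _ (card2 i k))
      (h.mono _ _ (by intro a; simp; tauto) (card3 i j k))
      ((h1.le J' hJ').trans (h.mono _ _ (by simp) (card2 i k)))

theorem le_sSup_gcl (h : Sys E S) (i : ι) :
    (⨆ i, E {i}) ≤ sSup {Y | ∃ J ∈ S {i}, Y = gcl S i J} := by
  refine iSup_le fun j => ?_
  have h2 := h.semi _ (card2 i j)
  have h1 := h.semi _ (card1 i)
  refine (h.mono {j} {i, j} (by simp) (card2 i j)).trans ((h2.le_sSup_cl h1
    ((h.subd _ (card2 i j)).mono (h.mono _ _ (by simp) (card1 i)))).trans (sSup_le ?_))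
  rintro _ ⟨J, hJ, rfl⟩
  exact le_sSup_of_le ⟨J, hJ, rfl⟩ (le_iSup (fun j => cl (S {i, j}) J) j)

theorem nm_gcl (h : Sys E S) (i : ι) {J : Subgroup G} (hJ : J ∈ S {i}) :
    Nm (⨆ i, E {i}) (gcl S i J) := by
  refine Nm.mono (Nm.sSup_left ?_) (h.le_sSup_gcl i)
  rintro _ ⟨J', hJ', rfl⟩
  by_cases e : J' = J
  · subst e; exact Nm.of_le le_rfl
  · exact (h.gcl_cm i hJ' hJ e).nm

theorem perfect (h : Sys E S) : (⨆ i, E {i}) ≤ ⁅⨆ i, E {i}, ⨆ i, E {i}⁆ :=
  iSup_le fun i => (h.semi _ (card1 i)).perfect.trans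
    (commutator_mono (le_iSup (fun i => E {i}) i) (le_iSup (fun i => E {i}) i))

/-- Normal subgroups lying in one closure for each colour of `s`. -/
def Fine (E : Finset ι → Subgroup G) (S : Finset ι → Set (Subgroup G)) (s : Finset ι) :
    Set (Subgroup G) :=
  {Y | Y ≤ ⨆ i, E {i} ∧ Nm (⨆ i, E {i}) Y ∧ ∀ i ∈ s, ∃ J ∈ S {i}, Y ≤ gcl S i J}

theorem le_sSup_fine (h : Sys E S) (s : Finset ι) : (⨆ i, E {i}) ≤ sSup (Fine E S s) := by
  induction s using Finset.induction_on with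
  | empty => exact le_sSup ⟨le_rfl, Nm.of_le le_rfl, fun i hi => absurd hi (by simp)⟩
  | insert i s _ ih =>
    refine h.perfect.trans ((commutator_mono ih (h.le_sSup_gcl i)).trans
      (comm_sSup_le (N := ⨆ i, E {i}) (Nm.sSup fun Y hY => hY.2.1) (fun Y hY => hY.1) ?_ ?_))
    · rintro _ ⟨J, -, rfl⟩
      exact h.gcl_le i J
    · rintro U hU _ ⟨J, hJ, rfl⟩
      refine le_sSup_of_le (b := U ⊓ gcl S i J)
        ⟨inf_le_left.trans hU.1, hU.2.1.inf (h.nm_gcl i hJ), fun k hk => ?_⟩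
        (le_inf (hU.2.1.mono (h.gcl_le i J)).comm_le_left
          ((h.nm_gcl i hJ).mono hU.1).comm_le_right)
      rcases Finset.mem_insert.1 hk with rfl | hk
      · exact ⟨J, hJ, inf_le_right⟩
      · obtain ⟨J', h1, h2⟩ := hU.2.2 k hk
        exact ⟨J', h1, inf_le_left.trans h2⟩

end Sys

/-- If `E = E0 C_E(J)` and all components other than `J` lie in `C`, then `E = E0 C`. -/
theorem cover {E E0 C J : Subgroup G} {S : Set (Subgroup G)} (h : Semi E S) (hs : Subd E0 E S)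
    (h0 : E0 ≤ E) (hJ : J ∈ S) (ho : ∀ J' ∈ S, J' ≠ J → J' ≤ C) : E ≤ E0 ⊔ C := by
  let O : Subgroup G := sSup {J' | J' ∈ S ∧ J' ≠ J}
  have hO : O ≤ C := sSup_le fun J' h' => ho J' h'.1 h'.2
  have hOE : O ≤ E := sSup_le fun J' h' => h.le J' h'.1
  have hOJ : Cm O J := Cm.sSup fun J' h' => h.cm J' h'.1 J hJ h'.2
  have hEO : Nm E O := Nm.sSup fun J' h' => h.nm h'.1
  have h1 : E ≤ J ⊔ O := h.sup.trans (sSup_le fun J' h' => by
    by_cases e : J' = J
    · exact le_sup_of_le_left e.le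
    · exact le_sup_of_le_right (le_sSup ⟨h', e⟩))
  let D : Subgroup G := E ⊓ centralizer (J : Set G)
  have hD : D ≤ (J ⊓ D) ⊔ O := by
    rw [← (hEO.mono (h.le J hJ)).dedekind' (le_inf hOE (cm_iff.1 hOJ))]
    exact le_inf (inf_le_left.trans h1) le_rfl
  have hZ : Cm J (J ⊓ D) := ((Semi.cmC (E := E) J).mono inf_le_right le_rfl).symm
  have hEZ : Nm E (J ⊓ D) := (h.nm hJ).inf (h.nmC hJ)
  have h2 : J ≤ (E0 ⊔ O) ⊔ (J ⊓ D) := by
    refine (h.le J hJ).trans ((hs J hJ).trans (sup_le (le_sup_of_le_left le_sup_left) ?_))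
    exact hD.trans (sup_le le_sup_right (le_sup_of_le_left le_sup_right))
  have hP : E0 ⊔ O ≤ E := sup_le h0 hOE
  have h3 : J ≤ ⁅J, E0 ⊔ O⁆ :=
    (h.perf J hJ).trans ((commutator_mono le_rfl h2).trans (comm_sup_cm hZ (hEZ.mono hP)))
  have hZE : Cm (E0 ⊔ O) (J ⊓ D) := by
    refine Cm.mono ?_ (hP.trans h1) le_rfl
    exact hZ.sup (hOJ.mono le_rfl inf_le_left)
  have h4 : ⁅J, E0 ⊔ O⁆ ≤ E0 ⊔ O := by
    rw [commutator_comm]
    exact (commutator_mono le_rfl h2).trans ((comm_sup_cm hZE (hEZ.mono hP)).trans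
      (commutator_le_self _))
  exact h1.trans (sup_le ((h3.trans h4).trans (sup_le_sup_left hO _)) (le_sup_of_le_right hO))

namespace Sys

variable {E : Finset ι → Subgroup G} {S : Finset ι → Set (Subgroup G)}

theorem other_le (h : Sys E S) [Fintype ι] {Y : Subgroup G} (i : ι) {J : Subgroup G}
    (hJ : J ∈ S {i}) (hY : Y ≤ gcl S i J) {J' : Subgroup G} (hJ' : J' ∈ S {i}) (hne : J' ≠ J) :
    J' ≤ (⨆ i, E {i}) ⊓ centralizer (Y : Set G) :=
  le_inf (((h.semi _ (card1 i)).le J' hJ').trans (le_iSup (fun i => E {i}) i))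
    (cm_iff.1 ((h.gcl_cm i hJ' hJ hne).mono (h.le_gcl i hJ') hY))

theorem cover_fine (h : Sys E S) [Fintype ι] {Y : Subgroup G} (hY : Y ∈ Fine E S Finset.univ) :
    (⨆ i, E {i}) ≤ E ∅ ⊔ ((⨆ i, E {i}) ⊓ centralizer (Y : Set G)) := by
  refine iSup_le fun i => ?_
  obtain ⟨J, hJ, hle⟩ := hY.2.2 i (Finset.mem_univ i)
  exact cover (h.semi _ (card1 i)) (h.subd _ (card1 i)) (h.mono _ _ (by simp) (card1 i)) hJ
    fun J' hJ' hne => h.other_le i hJ hle hJ' hne

theorem le_top (h : Sys E S) [Nonempty ι] : E ∅ ≤ ⨆ i, E {i} := by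
  obtain ⟨i⟩ := ‹Nonempty ι›
  exact (h.mono _ _ (by simp) (card1 i)).trans (le_iSup (fun i => E {i}) i)

/-- An element of the generated group normalising `E ∅` acts on each component of `E ∅` as an
element of that component. -/
theorem inner (h : Sys E S) [Fintype ι] [Nonempty ι] {J0 : Subgroup G} (h0 : J0 ∈ S ∅) {r : G}
    (hr : r ∈ ⨆ i, E {i}) (hn : r ∈ normalizer (E ∅ : Set G)) :
    ∃ j ∈ J0, j⁻¹ * r ∈ centralizer (J0 : Set G) := by
  have s0 := h.semi ∅ (by simp)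
  obtain ⟨i⟩ := ‹Nonempty ι›
  have s1 := h.semi _ (card1 i)
  have l01 : E ∅ ≤ E {i} := h.mono _ _ (by simp) (card1 i)
  have hex : ∃ Y ∈ Fine E S Finset.univ, ¬ Cm J0 Y := by
    by_contra c
    push Not at c
    exact s0.not_cm h0 ((Cm.sSup fun Y hY => (c Y hY).symm).mono
      ((s0.le J0 h0).trans (h.le_top.trans (h.le_sSup_fine _))) le_rfl)
  obtain ⟨Y, hY, hc⟩ := hex
  obtain ⟨J, hJ, hle⟩ := hY.2.2 i (Finset.mem_univ i)
  let C : Subgroup G := (⨆ i, E {i}) ⊓ centralizer (Y : Set G)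
  have hNC : Nm (⨆ i, E {i}) C := (Nm.of_le le_rfl).inf hY.2.1.centralizer
  have key : ∀ J1 ∈ S ∅, Cm J1 J → J1 ≤ C := by
    intro J1 h1 c
    refine (s1.le_cl ((s0.le J1 h1).trans l01) (s0.perf J1 h1)).trans (sSup_le fun J' h' => ?_)
    refine h.other_le i hJ hle h'.1 ?_
    rintro rfl
    exact h'.2 c
  have hJ0 : ¬ J0 ≤ C := fun c => hc (cm_iff.2 (c.trans inf_le_right))
  have h1 : E ∅ ≤ J0 ⊔ C := s0.sup.trans (sSup_le fun J1 h1 => by
    by_cases e : J1 = J0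
    · exact le_sup_of_le_left e.le
    · rcases s1.factB s0 l01 (h.subd _ (card1 i)) hJ h1 h0 e with c | c
      · exact le_sup_of_le_right (key J1 h1 c)
      · exact absurd (key J0 h0 c) hJ0)
  have h2 : r ∈ J0 ⊔ C := (sup_le h1 le_sup_right) (h.cover_fine hY hr)
  have l0N : J0 ≤ ⨆ i, E {i} := (s0.le J0 h0).trans h.le_top
  obtain ⟨j, hj, c, hcC, rfl⟩ := (hNC.mono l0N).mem_sup.1 h2
  refine ⟨j, hj, ?_⟩
  let R : Subgroup G := C ⊓ normalizer (E ∅ : Set G)
  have hcR : c ∈ R := ⟨hcC, by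
    simpa using (normalizer (E ∅ : Set G)).mul_mem
      ((normalizer (E ∅ : Set G)).inv_mem (le_normalizer (s0.le J0 h0 hj))) hn⟩
  have hX : ⁅R, J0⁆ ≤ E ∅ ⊓ C := by
    refine le_inf ((commutator_mono le_rfl (s0.le J0 h0)).trans
      (nm_iff.2 inf_le_right).comm_le_right) ?_
    exact (commutator_mono inf_le_left le_rfl).trans (hNC.mono l0N).comm_le_left
  have hXn : Nm (E ∅) (E ∅ ⊓ C) := (Nm.of_le le_rfl).inf (hNC.mono h.le_top)
  rcases s0.factA h0 (hXn.mono (s0.le J0 h0)) ((s0.nm h0).mono inf_le_left) with e | e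
  · exact absurd (e.trans inf_le_right) hJ0
  · have h3 : Cm R J0 := ((three (e.mono hX le_rfl)).mono (s0.perf J0 h0) le_rfl).symm
    simpa using cm_iff.1 h3 hcR

theorem inner_all (h : Sys E S) [Fintype ι] [Nonempty ι] (T : Set (Subgroup G)) (hT : T.Finite) :
    T ⊆ S ∅ → ∀ r ∈ ⨆ i, E {i}, r ∈ normalizer (E ∅ : Set G) →
      ∃ e ∈ E ∅, ∀ J ∈ T, e⁻¹ * r ∈ centralizer (J : Set G) := by
  have s0 := h.semi ∅ (by simp)
  induction T, hT using Set.Finite.induction_on with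
  | empty => exact fun _ r _ _ => ⟨1, one_mem _, fun J hJ => absurd hJ (by simp)⟩
  | @insert J0 T hn _ ih =>
    intro hsub r hr hrn
    have h0 : J0 ∈ S ∅ := hsub (Set.mem_insert _ _)
    obtain ⟨e, he, hc⟩ := ih (fun J hJ => hsub (Set.mem_insert_of_mem _ hJ)) r hr hrn
    obtain ⟨j, hj, hjc⟩ := h.inner h0 (r := e⁻¹ * r) (mul_mem (inv_mem (h.le_top he)) hr)
      (mul_mem (inv_mem (le_normalizer he)) hrn)
    refine ⟨e * j, mul_mem he (s0.le J0 h0 hj), fun J hJ => ?_⟩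
    rw [mul_inv_rev, mul_assoc]
    rcases Set.mem_insert_iff.1 hJ with rfl | hJ
    · exact hjc
    · refine mul_mem (inv_mem ?_) (hc J hJ)
      refine cm_iff.1 (s0.cm J0 h0 J (hsub (Set.mem_insert_of_mem _ hJ)) ?_) hj
      rintro rfl
      exact hn hJ

/-- The local-to-global lemma. -/
theorem lg0 (h : Sys E S) [Fintype ι] [Nonempty ι] (hfin : (S ∅).Finite) {r : G}
    (hr : r ∈ ⨆ i, E {i}) (hn : r ∈ normalizer (E ∅ : Set G)) :
    ∃ e ∈ E ∅, e⁻¹ * r ∈ centralizer ((⨆ i, E {i} : Subgroup G) : Set G) := by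
  have s0 := h.semi ∅ (by simp)
  obtain ⟨e, he, hc⟩ := h.inner_all (S ∅) hfin le_rfl r hr hn
  refine ⟨e, he, ?_⟩
  let R : Subgroup G := (⨆ i, E {i}) ⊓ centralizer (E ∅ : Set G)
  have hR : e⁻¹ * r ∈ R := by
    refine mem_inf.2 ⟨mul_mem (inv_mem (h.le_top he)) hr, ?_⟩
    have h1 : Cm (zpowers (e⁻¹ * r)) (E ∅) :=
      ((Cm.sSup fun J hJ => (cm_iff.2 (zpowers_le.2 (hc J hJ))).symm).mono s0.sup le_rfl).symm
    exact cm_iff.1 h1 (mem_zpowers _)
  have hRE : Cm R (E ∅) := cm_iff.2 inf_le_right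
  have h2 : Cm ⁅R, ⨆ i, E {i}⁆ (⨆ i, E {i}) := by
    refine Cm.mono (Cm.sSup fun Y hY => Cm.symm ?_).symm le_rfl (h.le_sSup_fine Finset.univ)
    have hNC : Nm (⨆ i, E {i}) ((⨆ i, E {i}) ⊓ centralizer (Y : Set G)) :=
      (Nm.of_le le_rfl).inf hY.2.1.centralizer
    refine cm_iff.2 (le_trans ?_ (inf_le_right (a := ⨆ i, E {i})))
    refine (commutator_mono le_rfl (h.cover_fine hY)).trans ?_
    exact (comm_sup_cm' hRE (hNC.mono h.le_top)).trans (hNC.mono inf_le_left).comm_le_right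
  exact cm_iff.1 ((three h2).mono h.perfect le_rfl).symm hR

end Sys

end Vale.Agent.P183A
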