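import Vale.Agent.P183A.Loc
import Vale.Agent.P183A.LG0

/-!
The local-to-global lemma for nice configurations of subgroups.
-/

namespace Vale.Agent.P183A

open Subgroup
open scoped commutatorElement

variable {G : Type} [Group G]

theorem sup_sInf {E W : Subgroup G} (hp : E ≤ ⁅E, E⁆) (hW : Nm E W) (hWE : W ≤ E)
    (S : Set (Subgroup G)) (hS : S.Finite) :
    (∀ X ∈ S, X ≤ E ∧ Nm E X ∧ W ⊔ X = E) → W ⊔ (E ⊓ sInf S) = E := by
  induction S, hS using Set.Finite.induction_on with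
  | empty => intro _; simp [hWE]
  | @insert X S _ _ ih =>
    intro h
    have h1 := ih fun Y hY => h Y (Set.mem_insert_of_mem _ hY)
    obtain ⟨h2, h3, h4⟩ := h X (Set.mem_insert _ _)
    have hA : Nm E (E ⊓ sInf S) :=
      (Nm.of_le le_rfl).inf (Nm.sInf fun Y hY => (h Y (Set.mem_insert_of_mem _ hY)).2.1)
    refine le_antisymm (sup_le hWE inf_le_left) (hp.trans ?_)
    refine (commutator_mono (h4.ge.trans (sup_comm _ _).le) (h1.ge.trans (sup_comm _ _).le)).trans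
      ((comm_sup_sup (hW.mono h2) (hW.mono inf_le_left)).trans (sup_le ?_ le_sup_left))
    refine le_sup_of_le_right ?_
    rw [sInf_insert]
    exact le_inf ((hA.mono h2).comm_le_right.trans inf_le_left) (le_inf
      (h3.mono inf_le_left).comm_le_left ((hA.mono h2).comm_le_right.trans inf_le_right))

theorem semi_of_loc {B Z E : Subgroup G} {XX : Set (Subgroup G)} (h : Loc B Z E XX)
    (hf : XX.Finite) (hp : E ≤ ⁅E, E⁆) (hc : Cm (E ⊓ sInf XX) E) :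
    ∃ S, Semi E S ∧ ∀ E0, (∀ X ∈ XX, E0 ⊔ X = E) → Subd E0 E S := by
  let P : Subgroup G → Subgroup G := fun X => E ⊓ sInf (XX \ {X})
  have hPn : ∀ X, Nm E (P X) := fun X => (Nm.of_le le_rfl).inf (Nm.sInf fun Y hY => h.nm Y hY.1)
  have hPX : ∀ X ∈ XX, X ⊔ P X = E := fun X hX =>
    sup_sInf hp (h.nm X hX) (h.le X hX) _ hf.sdiff fun Y hY => ⟨h.le Y hY.1, h.nm Y hY.1, by
      rcases h.mx X hX (X ⊔ Y) le_sup_left (sup_le (h.le X hX) (h.le Y hY.1))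
        ((h.nm X hX).sup (h.nm Y hY.1)) with e | e
      · exact absurd ((h.mx Y hY.1 X (sup_eq_left.1 e) (h.le X hX) (h.nm X hX)).resolve_right
          (h.ne X hX)).symm hY.2
      · exact e⟩
  have hF : ∀ X, P X ⊓ X ≤ E ⊓ sInf XX := fun X =>
    le_inf (inf_le_left.trans inf_le_left) (le_sInf fun Y hY => by
      by_cases e : Y = X
      · exact inf_le_right.trans e.ge
      · exact inf_le_left.trans (inf_le_right.trans (sInf_le ⟨hY, e⟩)))
  have hJP : ∀ X, ⁅P X, P X⁆ ≤ P X := fun X => commutator_le_self _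
  have hJE : ∀ X, ⁅P X, P X⁆ ≤ E := fun X => (hJP X).trans inf_le_left
  have hJn : ∀ X, Nm E ⁅P X, P X⁆ := fun X => (hPn X).comm (hPn X)
  have hJX : ∀ X ∈ XX, Cm ⁅P X, P X⁆ X := fun X hX => three (hc.mono
    ((le_inf ((hPn X).mono (h.le X hX)).comm_le_right
      ((h.nm X hX).mono inf_le_left).comm_le_left).trans (hF X)) inf_le_left)
  have hJs : ∀ X ∈ XX, ⁅P X, P X⁆ ⊔ X = E := fun X hX =>
    le_antisymm (sup_le (hJE X) (h.le X hX)) (hp.trans
      ((commutator_mono ((hPX X hX).ge.trans (sup_comm _ _).le)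
        ((hPX X hX).ge.trans (sup_comm _ _).le)).trans
        (comm_sup_sup ((h.nm X hX).mono inf_le_left) ((h.nm X hX).mono inf_le_left))))
  have cen : ∀ A, A ≤ E → ∀ C, C ≤ E → C ≤ A ⊔ (E ⊓ sInf XX) → ⁅C, C⁆ ≤ ⁅A, A⁆ := by
    intro A hA C hC hle
    have n1 : Nm A (E ⊓ sInf XX) := (hc.symm.mono hA le_rfl).nm
    refine (commutator_mono le_rfl hle).trans ((comm_sup_cm (hc.symm.mono hC le_rfl) n1).trans ?_)
    rw [commutator_comm]
    exact (commutator_mono le_rfl hle).trans (comm_sup_cm (hc.symm.mono hA le_rfl) n1)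
  have hperf : ∀ X ∈ XX, ⁅P X, P X⁆ ≤ ⁅⁅P X, P X⁆, ⁅P X, P X⁆⁆ := fun X hX => by
    refine cen _ (hJE X) _ inf_le_left ?_
    have h1 : P X ≤ (⁅P X, P X⁆ ⊔ X) ⊓ P X := le_inf (inf_le_left.trans (hJs X hX).ge) le_rfl
    rw [((h.nm X hX).mono (hJE X)).dedekind (hJP X)] at h1
    exact h1.trans (sup_le_sup_left ((inf_comm _ _).le.trans (hF X)) _)
  refine ⟨{J | ∃ X ∈ XX, J = ⁅P X, P X⁆}, ⟨?_, ?_, ?_, ?_, ?_, ?_⟩, ?_⟩
  · rintro _ ⟨X, -, rfl⟩
    exact hJE X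
  · have hW : Nm E (sSup {J | ∃ X ∈ XX, J = ⁅P X, P X⁆}) := Nm.sSup (by
      rintro _ ⟨X, -, rfl⟩; exact hJn X)
    have hWE : sSup {J | ∃ X ∈ XX, J = ⁅P X, P X⁆} ≤ E := sSup_le (by
      rintro _ ⟨X, -, rfl⟩; exact hJE X)
    have h1 := sup_sInf hp hW hWE XX hf fun X hX => ⟨h.le X hX, h.nm X hX,
      le_antisymm (sup_le hWE (h.le X hX)) ((hJs X hX).ge.trans
        (sup_le_sup_right (le_sSup (by exact ⟨X, hX, rfl⟩)) _))⟩
    exact hp.trans ((cen _ hWE E le_rfl h1.ge).trans (commutator_le_self _))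
  · rintro _ ⟨X, hX, rfl⟩ _ ⟨Y, hY, rfl⟩ hne
    refine (hJX X hX).mono le_rfl ((hJP Y).trans (inf_le_right.trans (sInf_le ⟨hX, ?_⟩)))
    rintro rfl
    exact hne rfl
  · rintro _ ⟨X, hX, rfl⟩
    exact hperf X hX
  · rintro _ ⟨X, hX, rfl⟩ e
    have := hJs X hX
    rw [e, bot_sup_eq] at this
    exact h.ne X hX this
  · rintro _ ⟨X, hX, rfl⟩ Y hY hn
    have h1 : Nm E Y := by
      rw [← hJs X hX]
      exact hn.sup_left ((hJX X hX).symm.mono le_rfl hY).nm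
    rcases h.mx X hX (Y ⊔ X) le_sup_right (sup_le (hY.trans (hJE X)) (h.le X hX))
      (h1.sup (h.nm X hX)) with e | e
    · exact Or.inr ((hJX X hX).symm.mono (sup_eq_right.1 e) le_rfl)
    · left
      refine le_antisymm hY ((hperf X hX).trans ((commutator_mono le_rfl ((hJE X).trans e.ge)).trans
        ((comm_sup_cm (hJX X hX) ((h.nm X hX).mono (hY.trans (hJE X)))).trans hn.comm_le_right)))
  · rintro E0 h0 _ ⟨X, hX, rfl⟩
    exact (h0 X hX).ge.trans (sup_le_sup_left (le_inf (h.le X hX) (cm_iff.1 (hJX X hX).symm)) _)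

theorem Sm.mono {B Y Z E E' : Subgroup G} (h : Sm B Y E) (h' : Sm B Z E') (hm : NoMod B Y)
    (hm' : NoMod B Z) (hle : Y ≤ Z) : E ≤ E' := by
  refine (h.min (E' ⊓ Y) inf_le_right ((h'.nm.mono hle).inf (Nm.of_le le_rfl)) fun c => ?_).trans
    inf_le_left
  have h1 : Y = B ⊔ (E' ⊓ Y) := by
    rw [← (h'.nm.mono hm'.lt.le).dedekind hm.lt.le, h'.sup hm', inf_eq_right.2 hle]
  exact hm.lt.ne' (h1.trans (sup_eq_left.2 c))

variable {ι : Type} [DecidableEq ι] [Fintype ι] [Nonempty ι]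

theorem lg_free [Finite G] {B : Subgroup G} {Z : Finset ι → Subgroup G} (hmono : Monotone Z)
    (hpair : ∀ i j, Z {i, j} ≤ Z {i} ⊔ Z {j}) (htop : ⊤ ≤ ⨆ i, Z {i})
    (hloc : ∀ I : Finset ι, I.card ≤ 3 →
      NoMod B (Z I) ∧ ∃ E XX, Sm B (Z I) E ∧ Loc B (Z I) E XX)
    (hfree : ∀ K, Nm ⊤ K → K ≤ B → K = ⊥) {D X : Subgroup G} (hD : Nm ⊤ D)
    (hDZ : ∀ i, Z {i} ≤ B ⊔ (D ⊓ Z {i})) (hX : Cm X D) : ⁅X, X⁆ ≤ Z ∅ := by
  have hm := fun I hI => (hloc I hI).1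
  choose! E XX hE hL using fun I hI => (hloc I hI).2
  have c0 : (∅ : Finset ι).card ≤ 3 := by simp
  have hEm : ∀ I I' : Finset ι, I ⊆ I' → I'.card ≤ 3 → E I ≤ E I' := fun I I' h hI' =>
    have hI := (Finset.card_le_card h).trans hI'
    (hE I hI).mono (hE I' hI') (hm I hI) (hm I' hI') (hmono h)
  let F : Finset ι → Subgroup G := fun I => E I ⊓ sInf (XX I)
  have hsub : ∀ I I' : Finset ι, I ⊆ I' → I'.card ≤ 3 →
      (∀ X ∈ XX I', E I ⊔ X = E I') ∧ ∀ R, R ≤ E I ⊓ B → Nm (Z I) R → R ≤ F I' := fun I I' h hI' =>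
    have hI := (Finset.card_le_card h).trans hI'
    (hL I' hI').sub (Z I) (E I) (hm I hI).lt (hmono h) (le_inf (hE I hI).le (hEm I I' h hI'))
      (hE I hI).nm (hE I hI).nle
  have hEF : ∀ I I' : Finset ι, I ⊆ I' → I'.card ≤ 3 → ⁅E I, F I'⁆ ≤ F I := fun I I' h hI' => by
    have hI := (Finset.card_le_card h).trans hI'
    have n1 : Nm (Z I) (F I') := (hL I' hI').fZ.mono (hmono h)
    have l1 : F I' ≤ Z I := (hL I' hI').fB.trans (hm I hI).lt.le
    refine le_trans (le_inf ((hE I hI).nm.mono l1).comm_le_left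
      (n1.mono (hE I hI).le).comm_le_right) ((hsub I I le_rfl hI).2 _ ?_ ((hE I hI).nm.inf n1))
    exact inf_le_inf_left _ (hL I' hI').fB
  have hBZ : ∀ i, B ⊔ E {i} = Z {i} := fun i => (hE _ (card1 i)).sup (hm _ (card1 i))
  have hF1 : ∀ i, F {i} = ⊥ := by
    have hn : Nm ⊤ (⨆ i, F {i}) := by
      refine Nm.mono (Nm.iSup_left fun j => ?_) htop
      rw [← hBZ j]
      refine Nm.sup_left (Nm.iSup fun i => (hL _ (card1 i)).fZ.mono (hm _ (card1 i)).lt.le)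
        (Nm.of_comm_le ?_)
      rw [commutator_comm, iSup]
      refine comm_sSup_left_le (N := ⨆ i, F {i}) (Nm.of_le le_rfl) ?_ ?_
      · rintro _ ⟨i, rfl⟩
        exact le_iSup (fun i => F {i}) i
      · rintro _ ⟨i, rfl⟩
        rw [commutator_comm]
        refine le_trans (commutator_mono le_rfl ((hsub {i} {i, j} (by simp) (card2 i j)).2 _
          (le_inf inf_le_left (hL _ (card1 i)).fB) (hL _ (card1 i)).fZ)) ?_
        exact (hEF {j} {i, j} (by simp) (card2 i j)).trans (le_iSup (fun i => F {i}) j)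
    have h0 := hfree _ hn (iSup_le fun i => (hL _ (card1 i)).fB)
    exact fun i => le_bot_iff.1 ((le_iSup (fun i => F {i}) i).trans h0.le)
  have hF0 : F ∅ = ⊥ := by
    obtain ⟨i⟩ := ‹Nonempty ι›
    exact le_bot_iff.1 (((hsub ∅ {i} (by simp) (card1 i)).2 _ (le_inf inf_le_left (hL _ c0).fB)
      (hL _ c0).fZ).trans (hF1 i).le)
  have hcen : ∀ I : Finset ι, I.card ≤ 3 → Cm (F I) (E I) := fun I hI => by
    have h0 : Cm (E ∅) (F I) :=
      cm_iff_comm.2 (le_bot_iff.1 ((hEF ∅ I (by simp) hI).trans hF0.le))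
    refine (cm_iff.2 (((hE I hI).min (Z I ⊓ centralizer (F I : Set G)) inf_le_left
      ((Nm.of_le le_rfl).inf (hL I hI).fZ.centralizer) fun c => ?_).trans inf_le_right)).symm
    exact (hE ∅ c0).nle ((le_inf ((hE ∅ c0).le.trans (hmono (by simp))) (cm_iff.1 h0)).trans c)
  choose! S hS hSd using fun I hI => semi_of_loc (hL I hI) (Set.toFinite _)
    ((hE I hI).perfect (hm I hI)) (hcen I hI)
  have hBE : ∀ i, Nm B (E {i}) := fun i => (hE _ (card1 i)).nm.mono (hm _ (card1 i)).lt.le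
  have sys : Sys E S := ⟨hS, hEm, fun I hI => hSd I hI _ (hsub ∅ I (by simp) hI).1, fun i j => by
    refine (hE _ (card2 i j)).min _ (sup_le ((hE _ (card1 i)).le.trans (hmono (by simp)))
      ((hE _ (card1 j)).le.trans (hmono (by simp)))) (Nm.mono ?_ (hpair i j))
      fun c => (hE _ (card1 i)).nle (le_sup_left.trans c)
    rw [← hBZ i, ← hBZ j]
    exact (((hBE i).sup (hBE j)).sup_left (Nm.of_le le_sup_left)).sup_left
      (((hBE i).sup (hBE j)).sup_left (Nm.of_le le_sup_right))⟩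
  have hND : (⨆ i, E {i}) ≤ D := iSup_le fun i =>
    ((hE _ (card1 i)).min (D ⊓ Z {i}) inf_le_right ((hD.mono le_top).inf (Nm.of_le le_rfl))
      fun c => (hm _ (card1 i)).lt.not_ge ((hDZ i).trans (sup_le le_rfl c))).trans inf_le_left
  have hXN : Cm X (⨆ i, E {i}) := hX.mono le_rfl hND
  have hX2 : X ≤ Z ∅ ⊔ ((⨆ i, E {i}) ⊓ centralizer ((⨆ i, E {i} : Subgroup G) : Set G)) := by
    intro σ hσ
    have h1 : σ ∈ B ⊔ ⨆ i, E {i} := (htop.trans (iSup_le fun i => (hBZ i).ge.trans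
      (sup_le_sup_left (le_iSup (fun i => E {i}) i) _))) trivial
    obtain ⟨γ, hγ, n, hn, rfl⟩ := (Nm.iSup hBE).mem_sup.1 h1
    have h2 : n ∈ normalizer (E ∅ : Set G) := by
      have h3 := nm_iff.1 (hXN.mono le_rfl sys.le_top).nm hσ
      have h4 := nm_iff.1 (hE ∅ c0).nm ((hm ∅ c0).lt.le hγ)
      simpa using mul_mem (inv_mem h4) h3
    obtain ⟨e, he, hc⟩ := sys.lg0 (Set.toFinite _) hn h2
    have h5 : γ * n = γ * e * (e⁻¹ * n) := by group
    rw [h5]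
    exact mul_mem (mem_sup_left (mul_mem ((hm ∅ c0).lt.le hγ) ((hE ∅ c0).le he)))
      (mem_sup_right (mem_inf.2 ⟨mul_mem (inv_mem (sys.le_top he)) hn, hc⟩))
  have hZn : Nm (Z ∅) ((⨆ i, E {i}) ⊓ centralizer ((⨆ i, E {i} : Subgroup G) : Set G)) := by
    have : Nm (Z ∅) (⨆ i, E {i}) := by
      rw [← (hE ∅ c0).sup (hm ∅ c0)]
      exact (Nm.iSup hBE).sup_left (Nm.of_le sys.le_top)
    exact this.inf this.centralizer
  have hXC := hXN.mono le_rfl (inf_le_left (b := centralizer ((⨆ i, E {i} : Subgroup G) : Set G)))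
  rw [commutator_le]
  intro σ hσ σ' hσ'
  obtain ⟨z, hz, c, hc, e⟩ := hZn.mem_sup.1 (hX2 hσ)
  obtain ⟨z', hz', c', hc', e'⟩ := hZn.mem_sup.1 (hX2 hσ')
  have k2 := hXC σ' hσ' c⁻¹ (inv_mem hc)
  have k3 : c'⁻¹ * c = c * c'⁻¹ := mem_centralizer_iff.1 hc.2 _ (inv_mem hc'.1)
  have ez : z = σ * c⁻¹ := by rw [← e]; group
  have ez' : z' = σ' * c'⁻¹ := by rw [← e']; group
  have : ⁅σ, σ'⁆ = ⁅z, z'⁆ := by
    rw [ez, ez']
    simp only [commutatorElement_def]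
    have k4 : c'⁻¹ * σ⁻¹ = σ⁻¹ * c'⁻¹ := (hXC σ⁻¹ (inv_mem hσ) c'⁻¹ (inv_mem hc')).symm
    calc σ * σ' * σ⁻¹ * σ'⁻¹ = σ * σ' * (σ⁻¹ * c'⁻¹) * c' * σ'⁻¹ := by group
      _ = σ * (σ' * c⁻¹) * (c * c'⁻¹) * σ⁻¹ * c' * σ'⁻¹ := by rw [← k4]; group
      _ = σ * (c⁻¹ * σ') * (c'⁻¹ * c) * σ⁻¹ * c' * σ'⁻¹ := by rw [k2, k3]
      _ = _ := by group
  rw [this]
  exact commutator_le_self _ (commutator_mem_commutator hz hz')

/-- The local-to-global lemma for a nice configuration. -/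
theorem lg [Finite G] {Λ : Type} [Lattice Λ] (hΛ : ¬ ASI Λ) {B W : Subgroup G}
    {Z : Finset ι → Subgroup G} (hmono : Monotone Z)
    (hpair : ∀ i j, Z {i, j} ≤ Z {i} ⊔ Z {j}) (hW : W = ⨆ i, Z {i}) (hZW : ∀ I, Z I ≤ W)
    (hB : B ≤ Z ∅)
    (hN : ∀ I : Finset ι, I.card ≤ 3 → ∃ (L : Type) (_ : Lattice L) (_ : BoundedOrder L),
      Nice Λ L ∧ Nonempty (Emb L (Set.Icc B (Z I))))
    {D X : Subgroup G} (hD : Nm W D) (hDW : D ≤ W) (hXW : X ≤ W)
    (hDZ : ∀ i, Z {i} ≤ B ⊔ (D ⊓ Z {i})) (hX : Cm X D) : ⁅X, X⁆ ≤ Z ∅ := by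
  let K : Subgroup W := (B.subgroupOf W).normalCore
  let q : W →* W ⧸ K := QuotientGroup.mk' K
  have hq : Function.Surjective q := QuotientGroup.mk'_surjective K
  have : Finite (W ⧸ K) := Finite.of_surjective _ hq
  let φ : Subgroup G → Subgroup (W ⧸ K) := fun A => (A.subgroupOf W).map q
  have hφ : ∀ {A A'}, A ≤ A' → φ A ≤ φ A' := fun h => map_mono (comap_mono h)
  have hsup : ∀ {A A'}, A ≤ W → A' ≤ W → φ (A ⊔ A') = φ A ⊔ φ A' := fun h h' => by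
    simp only [φ, subgroupOf_sup h h', Subgroup.map_sup]
  have hBW : B ≤ W := hB.trans (hZW _)
  have hK : ∀ y : W, q y = 1 → y ∈ B.subgroupOf W := fun y hy =>
    normalCore_le _ ((QuotientGroup.eq_one_iff y).1 hy)
  have key := lg_free (B := φ B) (Z := fun I => φ (Z I)) (D := φ D) (X := φ X)
    (fun _ _ h => hφ (hmono h))
    (fun i j => (hφ (hpair i j)).trans (hsup (hZW _) (hZW _)).le) ?_ ?_ ?_ ?_ ?_ ?_
  · intro g hg
    rw [← map_subgroupOf_eq_of_le hXW, ← map_commutator] at hg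
    obtain ⟨y, hy, rfl⟩ := hg
    obtain ⟨z, hz, e⟩ := key (by rw [← map_commutator]; exact ⟨y, hy, rfl⟩)
    have h1 := hB (hK (z⁻¹ * y) (by simp [e]))
    simpa using (Z ∅).mul_mem hz h1
  · intro g _
    obtain ⟨y, rfl⟩ := hq g
    have h1 : W ≤ ((⨆ i, φ (Z {i})).comap q).map W.subtype := by
      refine hW.le.trans (iSup_le fun i w hw => ⟨⟨w, hZW _ hw⟩, ?_, rfl⟩)
      exact (le_iSup (fun i => φ (Z {i})) i) ⟨_, hw, rfl⟩
    obtain ⟨y', hy', e⟩ := h1 y.2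
    rwa [← show y' = y from Subtype.ext e]
  · intro I hI
    obtain ⟨L, _, _, hL, ⟨R⟩⟩ := hN I hI
    have hBI : B ≤ Z I := hB.trans (hmono (by simp))
    refine loc_of_nice hL hΛ (Emb.map (X := B.subgroupOf W) (Y := (Z I).subgroupOf W)
      (R.trans (fun A => A.subgroupOf W) _ (fun a ha b _ => ⟨fun h g hg =>
        h (x := ⟨g, hZW I (ha.2 hg)⟩) hg, fun h => comap_mono h⟩) fun A => ⟨?_, fun hA => ?_⟩)
      (comap_mono hBI) q fun y _ hy => hK y hy)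
    · rintro ⟨a, ha, rfl⟩
      exact ⟨comap_mono ha.1, comap_mono ha.2⟩
    · refine ⟨A.map W.subtype, ⟨fun g hg => ⟨⟨g, hBW hg⟩, hA.1 hg, rfl⟩, ?_⟩,
        comap_map_eq_self_of_injective W.subtype_injective A⟩
      rintro _ ⟨g, hg, rfl⟩
      exact hA.2 hg
  · intro A hA hAB
    have := hA.normal.comap q
    have h1 : A.comap q ≤ K := normal_le_normalCore.2 fun y hy => by
      obtain ⟨b, hb, e⟩ := hAB hy
      simpa using mul_mem hb (hK (b⁻¹ * y) (by simp [e]))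
    refine le_bot_iff.1 fun a ha => ?_
    obtain ⟨y, rfl⟩ := hq a
    exact (QuotientGroup.eq_one_iff y).2 (h1 ha)
  · rintro g - _ ⟨d, hd, rfl⟩
    obtain ⟨y, rfl⟩ := hq g
    exact ⟨y * d * y⁻¹, hD _ y.2 _ hd, by simp⟩
  · intro i
    refine (hφ (hDZ i)).trans ((hsup hBW (inf_le_left.trans hDW)).le.trans ?_)
    exact sup_le_sup_left (le_inf (hφ inf_le_left) (hφ inf_le_right)) _
  · rintro _ ⟨x, hx, rfl⟩ _ ⟨d, hd, rfl⟩
    rw [← map_mul, ← map_mul]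
    exact congrArg q (Subtype.ext (hX _ hx _ hd))

end Vale.Agent.P183A
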