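import Vale.Agent.P183A.Asi

/-!
The trichotomy for nice lattices in the function model.
-/

namespace Vale.Agent.P183A

open Subgroup

variable {H T : Type} [Group H] [Group T]

/-- Invariant subgroups between `M` and the induced group. -/
def MS (Γ0 : Subgroup (H × MulAut T)) (M : Subgroup (H → T)) : Set (Subgroup (H → T)) :=
  {K | Inv K ∧ M ≤ K ∧ K ≤ KG Γ0}

/-- A lattice `L` realised by the invariant subgroups above `M`. -/
structure Mod (L : Type) [Lattice L] (H T : Type) [Group H] [Group T] where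
  Γ0 : Subgroup (H × MulAut T)
  M : Subgroup (H → T)
  graph : Graph Γ0
  inv : Inv M
  le : M ≤ KG Γ0
  E : Emb L (MS Γ0 M)

namespace Mod

variable {L : Type} [Lattice L] (m : Mod L H T)

theorem kinv (a : L) : Inv (m.E.κ a) := (m.E.mem a).1
theorem kge (a : L) : m.M ≤ m.E.κ a := (m.E.mem a).2.1
theorem kle (a : L) : m.E.κ a ≤ KG m.Γ0 := (m.E.mem a).2.2

theorem kinf (a b : L) : m.E.κ (a ⊓ b) = m.E.κ a ⊓ m.E.κ b :=
  m.E.map_inf a b ⟨(m.kinv a).inf (m.kinv b), le_inf (m.kge a) (m.kge b),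
    inf_le_left.trans (m.kle a)⟩

theorem ksup (a b : L) : m.E.κ (a ⊔ b) = m.E.κ a ⊔ m.E.κ b :=
  m.E.map_sup a b ⟨(m.kinv a).sup (m.kinv b), (m.kge a).trans le_sup_left,
    sup_le (m.kle a) (m.kle b)⟩

theorem kbot [OrderBot L] : m.E.κ ⊥ = m.M := by
  obtain ⟨a, ha⟩ := (m.E.range m.M).2 ⟨m.inv, le_rfl, m.le⟩
  exact le_antisymm (((m.E.le_iff _ a).2 bot_le).trans ha.le) (m.kge _)

theorem ktop [OrderTop L] : m.E.κ ⊤ = KG m.Γ0 := by
  obtain ⟨a, ha⟩ := (m.E.range _).2 ⟨inv_KG m.Γ0, m.le, le_rfl⟩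
  exact le_antisymm (m.kle _) (ha.ge.trans ((m.E.le_iff a _).2 le_top))

theorem kne [OrderBot L] {a : L} (h : a ≠ ⊥) : m.E.κ a ≠ ⊥ := fun e =>
  h (le_bot_iff.1 ((m.E.le_iff _ _).1 (e.le.trans bot_le)))

theorem exPU {U : Subgroup T} (h : m.M ≤ PU m.Γ0 U) : ∃ a, m.E.κ a = PU m.Γ0 U :=
  (m.E.range _).2 ⟨inv_PU _ _, h, PU_le _ _⟩

theorem ainv (a : L) : AInv m.Γ0 (ev (m.E.κ a)) := ainv_ev (m.kinv a) (m.kle a)

theorem lePU (a : L) : m.E.κ a ≤ PU m.Γ0 (ev (m.E.κ a)) := le_PU_ev (m.kinv a) (m.kle a)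

theorem exPhi (a : L) : ∃ b, a ≤ b ∧ m.E.κ b = PU m.Γ0 (ev (m.E.κ a)) := by
  obtain ⟨b, hb⟩ := m.exPU ((m.kge a).trans (m.lePU a))
  exact ⟨b, (m.E.le_iff _ _).1 ((m.lePU a).trans hb.ge), hb⟩

theorem PU_eq_top {U : Subgroup T} (hU : AInv m.Γ0 U) (h : PU m.Γ0 U = KG m.Γ0) : U = ⊤ := by
  rw [← ev_PU m.graph hU, h, sd_iff.1 (sd_KG m.graph)]

theorem gk_le [Finite H] [Finite T] (hT : NS T) {a b : L} :
    GK (m.E.κ b) ≤ GK (m.E.κ a) → Sd (m.E.κ b) → a ≤ b := fun h hb => by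
  rw [← m.E.le_iff, ← KG_GK hT (m.kinv b) hb]
  exact le_KG_iff.2 h

theorem up_le [Finite H] [Finite T] (hT : NS T) {a a' : L} (ha : Sd (m.E.κ a)) :
    ∀ x ∈ Set.Icc a a', ∀ y ∈ Set.Icc a a', GK (m.E.κ x) ≤ GK (m.E.κ y) ↔ y ≤ x :=
  fun _ hx _ _ => ⟨fun h => m.gk_le hT h
    (ha.mono ((m.E.le_iff _ _).2 hx.1)), fun h => GK_anti ((m.E.le_iff _ _).2 h)⟩

theorem up_range [Finite H] [Finite T] (hT : NS T) {a a' : L} (ha : Sd (m.E.κ a)) (haa : a ≤ a')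
    (Γ : Subgroup (H × MulAut T)) :
    (∃ x ∈ Set.Icc a a', GK (m.E.κ x) = Γ) ↔ Γ ∈ Set.Icc (GK (m.E.κ a')) (GK (m.E.κ a)) := by
  have := hT.nontrivial
  constructor
  · rintro ⟨x, hx, rfl⟩
    exact ⟨GK_anti ((m.E.le_iff _ _).2 hx.2), GK_anti ((m.E.le_iff _ _).2 hx.1)⟩
  · intro h
    have h1 : m.E.κ a ≤ KG Γ := le_KG_iff.2 h.2
    have h2 : KG Γ ≤ m.E.κ a' := by
      rw [← KG_GK hT (m.kinv a') (ha.mono ((m.E.le_iff _ _).2 haa))]
      exact KG_anti h.1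
    obtain ⟨x, hx⟩ := (m.E.range (KG Γ)).2 ⟨inv_KG _, (m.kge a).trans h1, h2.trans (m.kle _)⟩
    refine ⟨x, ⟨(m.E.le_iff _ _).1 (h1.trans hx.ge), (m.E.le_iff _ _).1 (hx.le.trans h2)⟩, ?_⟩
    rw [hx, GK_KG ((graph_GK ha).mono h.2)]

theorem gk_top [OrderTop L] (hT : NS T) : GK (m.E.κ ⊤) = m.Γ0 := by
  have := hT.nontrivial
  rw [m.ktop, GK_KG m.graph]

variable {Λ : Type} [Lattice Λ] [BoundedOrder L] [Finite H] [Finite T]

theorem c_prod (hT : NS T) (D : NiceData Λ L) {d : L} {U : Subgroup T}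
    (hd : m.E.κ d = PU m.Γ0 U) (hdt : d ≠ ⊤) (hod : D.o ≤ d) (i : Fin 2) :
    m.E.κ (D.c i) = PU m.Γ0 (ev (m.E.κ (D.c i))) := by
  by_contra hne
  have hs := D.s_lt i
  have hcS : Sd (m.E.κ (D.c i)) := by
    obtain ⟨b, hb, e⟩ := m.exPhi (D.c i)
    rcases D.above i b (hs.le.trans hb) with rfl | rfl | rfl
    · exact absurd hb hs.not_ge
    · exact absurd e hne
    · exact sd_iff.2 (m.PU_eq_top (m.ainv _) (e.symm.trans m.ktop))
  have hsS : Sd (m.E.κ (D.s i)) := by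
    by_contra c
    obtain ⟨b, hb, e⟩ := m.exPhi (D.s i)
    have hbc : b ≤ D.c i := by
      rcases D.above i b hb with rfl | rfl | rfl
      · exact hs.le
      · exact le_rfl
      · exact absurd (sd_iff.2 (m.PU_eq_top (m.ainv _) (e.symm.trans m.ktop))) c
    have h1 := eq_of_sd_PU hT m.graph (m.kinv _) (m.kle _) hcS (m.ainv (D.s i))
      (fun e0 => m.kne (ne_bot_of_le_ne_bot D.o_ne (D.o_le i)) (ev_eq_bot (m.kinv _) e0))
      (e.ge.trans ((m.E.le_iff _ _).2 hbc))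
    exact D.c_ne i (m.E.inj (h1.trans m.ktop.symm))
  have hcd : ¬ D.c i ≤ d := fun h => by
    rcases D.above i d (hs.le.trans h) with rfl | rfl | rfl
    · exact hs.not_ge h
    · refine hne (le_antisymm (m.lePU _) ?_)
      rw [sd_iff.1 hcS, PU_top]
      have h2 : ev (m.E.κ (D.c i)) ≤ U := by
        rintro _ ⟨f, hf, rfl⟩
        rw [hd] at hf
        exact (mem_PU.1 hf).2 1
      rw [sd_iff.1 hcS, top_le_iff] at h2
      rw [hd, h2, PU_top]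
    · exact hdt rfl
  have h3 : D.c i ⊓ d ≤ D.s i := D.below i _ (inf_lt_left.2 hcd)
  have h4 := gadget hT (m.kinv _) (m.kinv _) hsS (m.E.lt_iff.2 hs) (m.kle _) (U := U)
    (by rw [← hd, ← m.kinf, m.E.le_iff]; exact h3)
  rw [← hd, ← m.kinf] at h4
  exact m.kne (ne_bot_of_le_ne_bot D.o_ne (le_inf ((D.o_le i).trans hs.le) hod)) h4

theorem asi_of_prod (hT : NS T) (D : NiceData Λ L)
    (hc : ∀ i, m.E.κ (D.c i) = PU m.Γ0 (ev (m.E.κ (D.c i)))) : ASI Λ := by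
  let W : Subgroup T := ev (m.E.κ (D.c 0)) ⊓ ev (m.E.κ (D.c 1))
  have hW : AInv m.Γ0 W := fun γ hγ u hu => ⟨m.ainv _ γ hγ u hu.1, m.ainv _ γ hγ u hu.2⟩
  have he : m.E.κ D.e = PU m.Γ0 W := by rw [D.e_eq, m.kinf, PU_inf, ← hc, ← hc]
  have hp : ∀ a, D.x ≤ a → m.E.κ a = PU m.Γ0 (ev (m.E.κ a)) := by
    intro a ha
    obtain ⟨z, hz, ez⟩ := m.exPhi a
    have h1 : PU m.Γ0 W ≤ PU m.Γ0 (cor m.graph (m.E.κ a)) := PU_mono _ (le_cor m.graph hW
      (he.ge.trans ((m.E.le_iff _ _).2 (D.e_le.trans ha))))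
    obtain ⟨w, ew⟩ := m.exPU (((m.kge _).trans he.le).trans h1)
    have h2 : m.E.κ w ≤ m.E.κ a := ew.le.trans (PU_cor_le m.graph (m.kinv a))
    have hn : Nm (m.E.κ z) (m.E.κ w) := by
      rw [ez, ew]; exact nm_PU _ (nm_cor m.graph (m.kle a))
    have h3 := D.nomod_up z w (ha.trans hz) ((m.E.le_iff _ _).1 (he.le.trans (h1.trans ew.ge)))
      (((m.E.le_iff _ _).1 h2).trans hz) fun y y' _ g2 g3 => m.E.inj (by
        rw [m.ksup, m.kinf, m.kinf, m.ksup,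
          (hn.mono ((m.E.le_iff _ _).2 (g2.trans g3))).dedekind ((m.E.le_iff _ _).2 g2)])
    exact le_antisymm (m.lePU a) (by rw [← ez, ← h3]; exact h2)
  have hin : ∀ t, (∃ γ ∈ m.Γ0, γ.2 = MulAut.conj t) → ∀ i, t ∈ ev (m.E.κ (D.c i)) := by
    rintro t ⟨γ, hγ, eγ⟩ i
    let U := ev (m.E.κ (D.c i))
    have hU : AInv m.Γ0 U := m.ainv _
    have hN := ainv_normalizer hU
    have l1 : m.E.κ (D.c i) ≤ PU m.Γ0 (normalizer (U : Set T)) :=
      (hc i).le.trans (PU_mono _ le_normalizer)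
    obtain ⟨b, eb⟩ := m.exPU ((m.kge _).trans l1)
    have l2 : D.c i ≤ b := (m.E.le_iff _ _).1 (l1.trans eb.ge)
    have ht : t ∈ normalizer (U : Set T) := by
      refine nm_iff.1 (show Nm (zpowers t) U from nm_iff.2 (zpowers_le.2 ?_)) (mem_zpowers t)
      rw [mem_normalizer_iff]
      refine fun u => ⟨fun hu => ?_, fun hu => ?_⟩
      · have := hU γ hγ u hu
        rwa [eγ] at this
      · have := hU γ⁻¹ (inv_mem hγ) _ hu
        rw [Prod.snd_inv, eγ] at this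
        simpa [mul_assoc] using this
    rcases D.above i b ((D.s_lt i).le.trans l2) with rfl | rfl | rfl
    · exact absurd l2 (D.s_lt i).not_ge
    · have := congrArg ev eb
      rw [ev_PU m.graph hN] at this
      rw [this]; exact ht
    · exfalso
      have h1 := m.PU_eq_top hN (eb.symm.trans m.ktop)
      rcases hT.eq U (nm_iff.2 h1.ge) with e | e
      · exact m.kne (ne_bot_of_le_ne_bot D.o_ne ((D.o_le i).trans (D.s_lt i).le))
          (ev_eq_bot (m.kinv _) e)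
      · refine D.c_ne i (m.E.inj ?_)
        rw [hc i, m.ktop]
        change PU m.Γ0 U = _
        rw [e, PU_top]
  refine asi_of_inv hT (Γ := m.Γ0) (U0 := ev (m.E.κ D.x)) (fun t ht => ?_)
    (D.top_emb.trans (fun a => ev (m.E.κ a)) _ (fun a ha b hb => ⟨fun h => ?_, fun h => ?_⟩)
      fun U => ⟨?_, fun hU => ?_⟩)
  · have : t ∈ W := ⟨hin t ht 0, hin t ht 1⟩
    rw [← ev_PU m.graph hW, ← he] at this
    exact ev_mono ((m.E.le_iff _ _).2 D.e_le) this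
  · rw [← m.E.le_iff, hp a ha, hp b hb]
    exact PU_mono _ h
  · exact ev_mono ((m.E.le_iff _ _).2 h)
  · rintro ⟨a, ha, rfl⟩
    exact ⟨m.ainv a, ev_mono ((m.E.le_iff _ _).2 ha)⟩
  · have l1 : m.E.κ D.x ≤ PU m.Γ0 U := (m.lePU _).trans (PU_mono _ hU.2)
    obtain ⟨a, ea⟩ := m.exPU ((m.kge _).trans l1)
    exact ⟨a, (m.E.le_iff _ _).1 (l1.trans ea.ge), by rw [ea, ev_PU m.graph hU.1]⟩

theorem nomod_up (hT : NS T) {a : L} (ha : Sd (m.E.κ a)) (hn : NoMod a ⊤) :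
    NoMod m.Γ0 (GK (m.E.κ a)) := by
  have := hn.of_anti (fun x => GK (m.E.κ x)) (m.up_le hT ha) (m.up_range hT ha le_top)
  rwa [m.gk_top hT] at this

theorem upper (hT : NS T) {a x : L} (ha : Sd (m.E.κ a)) (hn : NoMod a ⊤) (hx : a ≤ x)
    (E : Emb Λᵒᵈ (Set.Icc a x)) :
    ASI Λ ∨ m.Γ0 ⊔ (GK (m.E.κ a) ⊓ (MonoidHom.snd H (MulAut T)).ker) = GK (m.E.κ a) ∨
      ∃ V : Subgroup T, V ≠ ⊥ ∧ V ≠ ⊤ ∧ AInv (GK (m.E.κ a)) V :=
  ext_case hT (m.nomod_up hT ha hn) (le_KG_iff.1 (m.kle x)) (GK_anti ((m.E.le_iff _ _).2 hx))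
    (E.transAnti (fun x => GK (m.E.κ x)) _ (m.up_le hT ha) (m.up_range hT ha hx)).undual

/-- The trichotomy. -/
theorem tri (hT : NS T) (D : NiceData Λ L) (hΛ : ¬ ASI Λ) :
    (∀ a, a ≠ ⊥ → Sd (m.E.κ a)) ∧
      (Sd m.M ∨ (m.M = ⊥ ∧ ∀ U, AInv m.Γ0 U → U = ⊥ ∨ U = ⊤)) := by
  have np : ∀ U, AInv m.Γ0 U → m.M ≤ PU m.Γ0 U → U = ⊥ ∨ U = ⊤ := by
    by_contra hc
    push Not at hc
    obtain ⟨U, hU, hMU, hU0, hU1⟩ := hc
    have key : ∀ (d : L) (U : Subgroup T), AInv m.Γ0 U → U ≠ ⊤ → m.E.κ d = PU m.Γ0 U →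
        ¬ D.o ≤ d := fun d U hU hU1 hd hod =>
      hΛ (m.asi_of_prod hT D (m.c_prod hT D hd (fun e => hU1 (m.PU_eq_top hU
        (by rw [← hd, e, m.ktop]))) hod))
    have hsd : ∀ w, D.o ≤ w → Sd (m.E.κ w) := fun w hw => by
      by_contra c
      obtain ⟨b, hb, e⟩ := m.exPhi w
      exact key b _ (m.ainv w) (fun e => c (sd_iff.2 e)) e (hw.trans hb)
    have hmeet : ∀ U, AInv m.Γ0 U → U ≠ ⊤ → m.M ≤ PU m.Γ0 U →
        m.E.κ D.s' ⊓ PU m.Γ0 U = m.M := fun U hU hU1 hM => by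
      obtain ⟨d, hd⟩ := m.exPU hM
      rw [← hd, ← m.kinf, inf_comm, (D.part d).resolve_left (key d U hU hU1 hd), m.kbot]
    have hM : m.M = ⊥ := by
      rw [← hmeet U hU hU1 hMU]
      exact gadget hT (m.kinv _) (m.kinv _) (hsd _ le_rfl) (m.E.lt_iff.2 D.o_lt) (m.kle _)
        ((hmeet U hU hU1 hMU).le.trans (m.kge _))
    have hs' := hsd _ D.o_lt.le
    have hG := graph_GK hs'
    have h0 : m.Γ0 ≤ GK (m.E.κ D.s') := le_KG_iff.1 (m.kle _)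
    have fin : ∀ V : Subgroup T, V ≠ ⊥ → V ≠ ⊤ → ¬ AInv (GK (m.E.κ D.s')) V := by
      intro V hV0 hV1 hV
      obtain ⟨⟨v, hv⟩, hv1⟩ := ne_bot_iff_exists_ne_one.1 hV0
      have h1 : dl (GK (m.E.κ D.s')) v ∈ m.E.κ D.s' ⊓ PU m.Γ0 V := by
        refine ⟨?_, dl_mem_PU hG h0 hV hv⟩
        have := dl_mem hG v
        rwa [KG_GK hT (m.kinv _) hs'] at this
      rw [(hmeet V (fun γ hγ => hV γ (h0 hγ)) hV1 (hM.le.trans bot_le)).trans hM, mem_bot] at h1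
      have h2 := congrFun h1 1
      rw [dl_one hG] at h2
      exact hv1 (Subtype.ext h2)
    rcases m.upper hT hs' D.nomod' D.s'_le D.bot_emb with h | h | ⟨V, hV0, hV1, hV⟩
    · exact hΛ h
    · refine fin U hU0 hU1 fun γ hγ u hu => ?_
      rw [← h] at hγ
      have hn : Nm m.Γ0 (GK (m.E.κ D.s') ⊓ (MonoidHom.snd H (MulAut T)).ker) :=
        (Nm.of_le h0).inf (Nm.of_normal _ _)
      obtain ⟨a, ha, b, hb, rfl⟩ := hn.mem_sup.1 hγ
      have : b.2 = 1 := hb.2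
      simpa [this] using hU a ha u hu
    · exact fin V hV0 hV1 hV
  refine ⟨fun a ha => ?_, ?_⟩
  · rcases np _ (m.ainv a) ((m.kge a).trans (m.lePU a)) with e | e
    · exact absurd (ev_eq_bot (m.kinv a) e) (m.kne ha)
    · exact sd_iff.2 e
  · rcases np _ (ainv_ev m.inv m.le) (le_PU_ev m.inv m.le) with e | e
    · have hM := ev_eq_bot m.inv e
      exact Or.inr ⟨hM, fun U hU => np U hU (hM.le.trans bot_le)⟩
    · exact Or.inl (sd_iff.2 e)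

end Mod

end Vale.Agent.P183A
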