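import Vale.Agent.P183A.Tk

/-!
Central products of quasisimple groups and closures of components.
-/

namespace Vale.Agent.P183A

open Subgroup
open scoped commutatorElement

variable {G : Type} [Group G]

/-- `E` is the central product of the quasisimple groups in `S`. -/
structure Semi (E : Subgroup G) (S : Set (Subgroup G)) : Prop where
  le : ∀ J ∈ S, J ≤ E
  sup : E ≤ sSup S
  cm : ∀ J ∈ S, ∀ J' ∈ S, J ≠ J' → Cm J J'
  perf : ∀ J ∈ S, J ≤ ⁅J, J⁆
  ne : ∀ J ∈ S, J ≠ ⊥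
  qs : ∀ J ∈ S, ∀ Y, Y ≤ J → Nm J Y → Y = J ∨ Cm Y J

/-- `E0` covers every simple factor of `E`. -/
def Subd (E0 E : Subgroup G) (S : Set (Subgroup G)) : Prop :=
  ∀ J ∈ S, E ≤ E0 ⊔ (E ⊓ centralizer (J : Set G))

namespace Semi

variable {E E' E0 : Subgroup G} {S S' : Set (Subgroup G)}

theorem not_cm (h : Semi E S) {J : Subgroup G} (hJ : J ∈ S) : ¬ Cm J J := fun hc =>
  h.ne J hJ (le_bot_iff.1 ((h.perf J hJ).trans (cm_iff_comm.1 hc).le))

theorem nm (h : Semi E S) {J : Subgroup G} (hJ : J ∈ S) : Nm E J := by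
  refine Nm.mono (Nm.sSup_left fun J' hJ' => ?_) h.sup
  by_cases e : J' = J
  · exact Nm.of_le e.le
  · exact (h.cm J' hJ' J hJ e).nm

theorem perfect (h : Semi E S) : E ≤ ⁅E, E⁆ :=
  h.sup.trans (sSup_le fun J hJ => (h.perf J hJ).trans (commutator_mono (h.le J hJ) (h.le J hJ)))

theorem factA (h : Semi E S) {J Y : Subgroup G} (hJ : J ∈ S) (h1 : Nm J Y) (h2 : Nm Y J) :
    J ≤ Y ∨ Cm Y J := by
  rcases h.qs J hJ (Y ⊓ J) inf_le_right (h1.inf (Nm.of_le le_rfl)) with e | e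
  · exact Or.inl (e.symm.le.trans inf_le_left)
  · right
    have h3 : Cm ⁅Y, J⁆ J := e.mono (le_inf h1.comm_le_left h2.comm_le_right) le_rfl
    exact ((three h3).mono (h.perf J hJ) le_rfl).symm

theorem nmC (h : Semi E S) {J : Subgroup G} (hJ : J ∈ S) :
    Nm E (E ⊓ centralizer (J : Set G)) :=
  (Nm.of_le le_rfl).inf (h.nm hJ).centralizer

theorem cmC (J : Subgroup G) : Cm (E ⊓ centralizer (J : Set G)) J :=
  (cm_centralizer J).mono inf_le_right le_rfl

theorem factB (h : Semi E S) (h' : Semi E' S') (hle : E' ≤ E) (hs : Subd E' E S)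
    {J J1 J2 : Subgroup G} (hJ : J ∈ S) (h1 : J1 ∈ S') (h2 : J2 ∈ S') (hne : J1 ≠ J2) :
    Cm J1 J ∨ Cm J2 J := by
  have key : ∀ J0 ∈ S', J ≤ J0 ⊔ (E ⊓ centralizer (J : Set G)) ∨ Cm J0 J := by
    intro J0 h0
    have hE : J0 ⊔ (E ⊓ centralizer (J : Set G)) ≤ E := sup_le ((h'.le J0 h0).trans hle) inf_le_left
    have hn : Nm E (J0 ⊔ (E ⊓ centralizer (J : Set G))) :=
      Nm.mono (Nm.sup_left ((h'.nm h0).sup ((h.nmC hJ).mono hle)) (Nm.of_le le_sup_right)) (hs J hJ)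
    rcases h.factA hJ (hn.mono (h.le J hJ)) ((h.nm hJ).mono hE) with e | e
    · exact Or.inl e
    · exact Or.inr (e.mono le_sup_left le_rfl)
  rcases key J1 h1 with e1 | e1
  · rcases key J2 h2 with e2 | e2
    · exfalso
      refine h.not_cm hJ ((cmC (E := E) J).mono ?_ le_rfl)
      have h3 := comm_sup_sup ((h.nmC hJ).mono ((h'.le J1 h1).trans hle))
        ((h.nmC hJ).mono ((h'.le J2 h2).trans hle))
      rw [cm_iff_comm.1 (h'.cm J1 h1 J2 h2 hne), bot_sup_eq] at h3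
      exact (h.perf J hJ).trans ((commutator_mono e1 e2).trans h3)
    · exact Or.inr e2
  · exact Or.inl e1

end Semi

/-- The product of the components that `J'` does not centralise. -/
def cl (S : Set (Subgroup G)) (J' : Subgroup G) : Subgroup G := sSup {J | J ∈ S ∧ ¬ Cm J' J}

namespace Semi

variable {E E' E0 : Subgroup G} {S S' : Set (Subgroup G)}

theorem cl_le (h : Semi E S) (J' : Subgroup G) : cl S J' ≤ E := sSup_le fun J hJ => h.le J hJ.1

theorem nm_cl (h : Semi E S) (J' : Subgroup G) : Nm E (cl S J') := Nm.sSup fun _ hJ => h.nm hJ.1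

theorem le_cl (h : Semi E S) {J' : Subgroup G} (hle : J' ≤ E) (hp : J' ≤ ⁅J', J'⁆) :
    J' ≤ cl S J' := by
  let O : Subgroup G := sSup {J | J ∈ S ∧ Cm J' J}
  have h1 : E ≤ cl S J' ⊔ O := h.sup.trans (sSup_le fun J hJ => by
    by_cases c : Cm J' J
    · exact le_sup_of_le_right (le_sSup ⟨hJ, c⟩)
    · exact le_sup_of_le_left (le_sSup ⟨hJ, c⟩))
  have h2 : Cm J' O := (Cm.sSup fun J hJ => hJ.2.symm).symm
  have h3 : Nm (cl S J') O := (Nm.sSup fun J hJ => h.nm hJ.1).mono (h.cl_le J')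
  exact hp.trans ((commutator_mono le_rfl (hle.trans h1)).trans ((comm_sup_cm h2 h3).trans
    ((h.nm_cl J').mono hle).comm_le_right))

theorem cl_cm (h : Semi E S) (h' : Semi E' S') (hle : E' ≤ E) (hs : Subd E' E S)
    {J1 J2 : Subgroup G} (h1 : J1 ∈ S') (h2 : J2 ∈ S') (hne : J1 ≠ J2) :
    Cm (cl S J1) (cl S J2) := by
  refine Cm.sSup fun A hA => (Cm.sSup fun B hB => h.cm B hB.1 A hA.1 ?_).symm
  rintro rfl
  rcases h.factB h' hle hs hA.1 h1 h2 hne with e | e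
  · exact hA.2 e
  · exact hB.2 e

theorem le_sSup_cl (h : Semi E S) (h' : Semi E' S') (hs : Subd E' E S) :
    E ≤ sSup {Y | ∃ J' ∈ S', Y = cl S J'} := by
  refine h.sup.trans (sSup_le fun J hJ => ?_)
  by_cases c : ∃ J' ∈ S', ¬ Cm J' J
  · obtain ⟨J', h1, h2⟩ := c
    exact le_sSup_of_le ⟨J', h1, rfl⟩ (le_sSup ⟨hJ, h2⟩)
  · exfalso
    push Not at c
    have h1 : Cm E' J := (Cm.sSup c).mono h'.sup le_rfl
    exact h.not_cm hJ ((h1.sup (cmC (E := E) J)).mono ((h.le J hJ).trans (hs J hJ)) le_rfl)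

theorem cl_mono (h : Semi E S) (h' : Semi E' S') (hle : E' ≤ E) {J0 : Subgroup G}
    (h0 : J0 ≤ E') : cl S' J0 ≤ cl S J0 := by
  refine sSup_le fun J' hJ' => ?_
  refine (h.le_cl ((h'.le J' hJ'.1).trans hle) (h'.perf J' hJ'.1)).trans (sSup_le fun J hJ => ?_)
  refine le_sSup ⟨hJ.1, fun c => ?_⟩
  have hn : Nm E' (E' ⊓ centralizer (J : Set G)) :=
    (Nm.of_le le_rfl).inf ((h.nm hJ.1).mono hle).centralizer
  rcases h'.factA hJ'.1 (hn.mono (h'.le J' hJ'.1)) ((h'.nm hJ'.1).mono inf_le_left) with e | e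
  · exact hJ.2 ((cmC (E := E') J).mono e le_rfl)
  · exact hJ'.2 (e.mono (le_inf h0 (cm_iff.1 c)) le_rfl)

end Semi

theorem Subd.mono {E0 E1 E : Subgroup G} {S : Set (Subgroup G)} (h : Subd E0 E S)
    (hle : E0 ≤ E1) : Subd E1 E S := fun J hJ => (h J hJ).trans (sup_le_sup_right hle _)

end Vale.Agent.P183A
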