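import Vale.Agent.P183A.Setup
import Vale.Agent.P183A.Semi

/-!
The local structure of a nice interval, and the passage to components.
-/

namespace Vale.Agent.P183A

open Subgroup
open scoped commutatorElement

section model

variable {H T : Type} [Group H] [Group T]

theorem self_norm [Finite H] [Finite T] (hT : NS T) {K K' : Subgroup (H → T)} (hI : Inv K)
    (hS : Sd K) (hn : Nm K' K) : K' ≤ K := by
  rw [← KG_GK hT hI hS]
  intro f hf γ hγ h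
  have key : (f (γ.1 * h))⁻¹ * γ.2 (f h) = 1 := hT.center fun t => by
    obtain ⟨g, hg, e⟩ := hS (γ.2.symm t)
    have hg' := hI g hg h⁻¹
    have h1 := hγ _ (hn f hf _ hg') h
    have h2 := hγ _ hg' h
    simp only [mul_inv_cancel, e, MulEquiv.apply_symm_apply, Pi.mul_apply, Pi.inv_apply, map_mul,
      map_inv] at h1 h2
    rw [h2] at h1
    calc (f (γ.1 * h))⁻¹ * γ.2 (f h) * t
        = (f (γ.1 * h))⁻¹ * (γ.2 (f h) * t * (γ.2 (f h))⁻¹) * γ.2 (f h) := by group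
      _ = (f (γ.1 * h))⁻¹ * (f (γ.1 * h) * t * (f (γ.1 * h))⁻¹) * γ.2 (f h) := by rw [h1]
      _ = t * ((f (γ.1 * h))⁻¹ * γ.2 (f h)) := by group
  exact inv_mul_eq_one.1 key

theorem nm_ev {K K' : Subgroup (H → T)} (h : Nm K K') : Nm (ev K) (ev K') := by
  rintro _ ⟨f, hf, rfl⟩ _ ⟨g, hg, rfl⟩
  exact ⟨_, h f hf g hg, rfl⟩

theorem bot_or_sd (hT : NS T) {K K' : Subgroup (H → T)} (hS : Sd K) (hI : Inv K')
    (h : Nm K K') : K' = ⊥ ∨ Sd K' := by
  have := nm_ev h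
  rw [sd_iff.1 hS] at this
  exact (hT.eq _ this).imp (ev_eq_bot hI) sd_iff.2

end model

variable {G : Type} [Group G]

/-- The local structure of `E` given by a family `XX` of maximal normal subgroups. -/
structure Loc (B Z E : Subgroup G) (XX : Set (Subgroup G)) : Prop where
  le : ∀ X ∈ XX, X ≤ E
  nm : ∀ X ∈ XX, Nm E X
  ne : ∀ X ∈ XX, X ≠ E
  mx : ∀ X ∈ XX, ∀ W, X ≤ W → W ≤ E → Nm E W → W = X ∨ W = E
  fB : E ⊓ sInf XX ≤ B
  fZ : Nm Z (E ⊓ sInf XX)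
  sub : ∀ Y E', B < Y → Y ≤ Z → E' ≤ Y ⊓ E → Nm Y E' → ¬ E' ≤ B →
    (∀ X ∈ XX, E' ⊔ X = E) ∧ ∀ R, R ≤ E' ⊓ B → Nm Y R → R ≤ E ⊓ sInf XX

variable {T : Type} [Group T]

theorem nm_im {B E : Subgroup G} (h : Nm B E) (π : E →* T) {Y R : Subgroup G} (hn : Nm Y R) :
    Nm (im h π Y) (im h π R) := by
  rintro _ ⟨y, hy, rfl⟩ _ ⟨r, hr, rfl⟩
  exact ⟨y * r * y⁻¹, hn _ hy _ hr, by simp⟩

theorem le_kr_of_im {B E : Subgroup G} (h : Nm B E) (π : E →* T) {R : Subgroup G} (hR : R ≤ E)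
    (e : im h π R = ⊥) : R ≤ kr h π := fun r hr => by
  have : Phi h π ⟨r, hR hr⟩ ∈ im h π R := ⟨_, hr, rfl⟩
  rw [e] at this
  exact ⟨_, this, rfl⟩

theorem exists_loc [Finite G] [Finite T] {B Z E : Subgroup G} (hE : Sm B Z E) (hm : NoMod B Z)
    (hT : NS T) {π : E →* T} (hπ : Function.Surjective π)
    (hsd : ∀ Y, B < Y → Y ≤ Z → Sd (im (hE.nm.mono hm.lt.le) π Y)) : ∃ XX, Loc B Z E XX := by
  have := hT.nontrivial
  have hB := hE.nm.mono hm.lt.le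
  let X : B → Subgroup G := fun b => (π.comp (cj hB b)).ker.map E.subtype
  have hsurj : ∀ b, Function.Surjective (π.comp (cj hB b)) := fun b => by
    refine hπ.comp fun n => ⟨cj hB b⁻¹ n, Subtype.ext ?_⟩
    simp [cj, mul_assoc]
  have hmem : ∀ b (n : E), n.1 ∈ X b ↔ Phi hB π n b = 1 := fun b n =>
    mem_map_iff_mem E.subtype_injective
  have hk : E ⊓ sInf (Set.range X) = kr hB π := by
    refine le_antisymm (fun g hg => ⟨⟨g, hg.1⟩, funext fun b => (hmem b _).1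
      (mem_sInf.1 hg.2 _ ⟨b, rfl⟩), rfl⟩) (le_inf (kr_le _ _) (le_sInf ?_))
    rintro _ ⟨b, rfl⟩ _ ⟨n, hn, rfl⟩
    exact (hmem b n).2 (congrFun hn b)
  have hkB := hE.kr_le hm hπ
  refine ⟨Set.range X, ?_, ?_, ?_, ?_, hk.le.trans hkB, ?_, ?_⟩
  · rintro _ ⟨b, rfl⟩
    exact map_subtype_le _
  · rintro _ ⟨b, rfl⟩ e he _ ⟨n, hn, rfl⟩
    exact ⟨_, (MonoidHom.normal_ker _).conj_mem n hn ⟨e, he⟩, rfl⟩
  · rintro _ ⟨b, rfl⟩ e
    obtain ⟨t, ht⟩ := exists_ne (1 : T)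
    obtain ⟨n, rfl⟩ := hsurj b t
    exact ht ((hmem b n).1 (e.ge n.2))
  · rintro _ ⟨b, rfl⟩ W h1 h2 h3
    have hn : Nm ⊤ ((W.subgroupOf E).map (π.comp (cj hB b))) := by
      rintro t - _ ⟨w, hw, rfl⟩
      obtain ⟨n, rfl⟩ := hsurj b t
      exact ⟨n * w * n⁻¹, h3 _ n.2 _ hw, by simp⟩
    rcases hT.eq _ hn with e | e
    · left
      refine le_antisymm (fun w hw => (hmem b ⟨w, h2 hw⟩).2 ?_) h1
      have : π.comp (cj hB b) ⟨w, h2 hw⟩ ∈ (W.subgroupOf E).map (π.comp (cj hB b)) :=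
        ⟨_, hw, rfl⟩
      rwa [e] at this
    · right
      refine le_antisymm h2 fun n hn => ?_
      have : π.comp (cj hB b) ⟨n, hn⟩ ∈ (W.subgroupOf E).map (π.comp (cj hB b)) := by
        rw [e]; trivial
      obtain ⟨w, hw, ew⟩ := this
      have h4 : (w⁻¹ * ⟨n, hn⟩ : E).1 ∈ X b := ⟨w⁻¹ * ⟨n, hn⟩, by
        rw [SetLike.mem_coe, MonoidHom.mem_ker, map_mul, map_inv, ew, inv_mul_cancel], rfl⟩
      simpa using W.mul_mem hw (h1 h4)
  · rw [hk]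
    exact (nm_kr hB π).mono (hE.sup hm).ge
  · intro Y E' h1 h2 h3 h4 h5
    have hY := hsd Y h1 h2
    have hI : Inv (im hB π E') := inv_im hB π (h4.mono h1.le)
    have hS : Sd (im hB π E') := (bot_or_sd hT hY hI (nm_im hB π h4)).resolve_left fun e =>
      h5 ((le_kr_of_im hB π (h3.trans inf_le_right) e).trans hkB)
    refine ⟨?_, fun R hR hn => ?_⟩
    · rintro _ ⟨b, rfl⟩
      refine le_antisymm (sup_le (h3.trans inf_le_right) (map_subtype_le _)) fun n hn => ?_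
      obtain ⟨f, hf, ef⟩ := hS (Phi hB π ⟨n, hn⟩ b)
      obtain ⟨w, hw, ew⟩ := hI f hf b⁻¹
      have h6 : (w⁻¹ * ⟨n, hn⟩ : E).1 ∈ X b := (hmem b _).2 (by
        rw [map_mul, map_inv, ew]
        simp [ef])
      simpa using mul_mem (mem_sup_left (T := X b) (show w.1 ∈ E' from hw)) (mem_sup_right h6)
    · rw [hk]
      have hRE : R ≤ E := hR.trans (inf_le_left.trans (h3.trans inf_le_right))
      have hIR : Inv (im hB π R) := inv_im hB π (hn.mono h1.le)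
      rcases bot_or_sd hT hY hIR (nm_im hB π hn) with e | e
      · exact le_kr_of_im hB π hRE e
      · have h6 := self_norm hT hIR e (nm_im hB π (hn.mono (h3.trans inf_le_left)))
        exact absurd ((le_inf le_rfl (h3.trans inf_le_right)).trans (le_of_im_le hB π hkB
          (h6.trans (im_mono hB π (hR.trans inf_le_right))))) h5

theorem loc_of_nice [Finite G] {B Z : Subgroup G} {Λ L : Type} [Lattice Λ] [Lattice L]
    [BoundedOrder L] (hN : Nice Λ L) (hΛ : ¬ ASI Λ) (R : Emb L (Set.Icc B Z)) :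
    NoMod B Z ∧ ∃ E XX, Sm B Z E ∧ Loc B Z E XX := by
  obtain ⟨D⟩ := hN
  have hm := R.nomod D.nomod
  obtain ⟨E, hE⟩ := exists_sm hm
  obtain ⟨T, _, _, π, hT, hπ⟩ := hE.exists_quot hm
  obtain ⟨XX, hX⟩ := exists_loc hE hm hT hπ fun Y h1 h2 => by
    obtain ⟨a, rfl⟩ := (R.range Y).2 ⟨h1.le, h2⟩
    refine ((hE.mod hm hT hπ R).tri hT D hΛ).1 a ?_
    rintro rfl
    obtain ⟨b, hb⟩ := (R.range B).2 ⟨le_rfl, hm.lt.le⟩
    exact h1.not_ge (((R.le_iff _ b).2 bot_le).trans hb.le)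
  exact ⟨hm, E, XX, hE, hX⟩

end Vale.Agent.P183A
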