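import Vale.Agent.P183A.Tk
import Mathlib.GroupTheory.Subgroup.Simple
import Mathlib.Algebra.Group.Subgroup.Finite
import Mathlib.Algebra.Group.End
import Mathlib.Data.Set.Card

/-!
Invariant subgroups of the function group `H → T` and graphs in `H × Aut T`.
-/

namespace Vale.Agent.P183A

open Subgroup
open scoped commutatorElement

variable {H T : Type} [Group H] [Group T]

/-- Functions that are equivariant for `Γ`. -/
def KG (Γ : Subgroup (H × MulAut T)) : Subgroup (H → T) where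
  carrier := {f | ∀ γ ∈ Γ, ∀ h, f (γ.1 * h) = γ.2 (f h)}
  one_mem' := fun γ _ h => by simp
  mul_mem' := fun {f g} hf hg γ hγ h => by simp [hf γ hγ h, hg γ hγ h]
  inv_mem' := fun {f} hf γ hγ h => by simp [hf γ hγ h]

/-- The pairs for which all functions of `K` are equivariant. -/
def GK (K : Subgroup (H → T)) : Subgroup (H × MulAut T) where
  carrier := {γ | ∀ f ∈ K, ∀ h, f (γ.1 * h) = γ.2 (f h)}
  one_mem' := fun f _ h => by simp
  mul_mem' := fun {a b} ha hb f hf h => by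
    simp only [Prod.fst_mul, Prod.snd_mul, mul_assoc, MulAut.mul_apply]
    rw [ha f hf, hb f hf]
  inv_mem' := fun {a} ha f hf h => by
    have := ha f hf (a.1⁻¹ * h)
    rw [mul_inv_cancel_left] at this
    simp only [Prod.fst_inv, Prod.snd_inv]
    rw [this]; simp

theorem le_KG_iff {K : Subgroup (H → T)} {Γ : Subgroup (H × MulAut T)} : K ≤ KG Γ ↔ Γ ≤ GK K :=
  ⟨fun h γ hγ _ hf => h hf γ hγ, fun h f hf _ hγ => h hγ f hf⟩

theorem KG_anti {Γ Γ' : Subgroup (H × MulAut T)} (h : Γ ≤ Γ') : KG Γ' ≤ KG Γ :=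
  fun _ hf γ hγ => hf γ (h hγ)

theorem GK_anti {K K' : Subgroup (H → T)} (h : K ≤ K') : GK K' ≤ GK K :=
  fun _ hγ f hf => hγ f (h hf)

/-- `K` is invariant under right translations. -/
def Inv (K : Subgroup (H → T)) : Prop := ∀ f ∈ K, ∀ h, (fun x => f (x * h)) ∈ K

/-- `K` is subdirect. -/
def Sd (K : Subgroup (H → T)) : Prop := ∀ t, ∃ f ∈ K, f 1 = t

/-- `Γ` is the graph of a homomorphism from a subgroup of `H`. -/
def Graph (Γ : Subgroup (H × MulAut T)) : Prop := ∀ σ, ((1 : H), σ) ∈ Γ → σ = 1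

/-- `U` is invariant under the automorphisms in `Γ`. -/
def AInv (Γ : Subgroup (H × MulAut T)) (U : Subgroup T) : Prop := ∀ γ ∈ Γ, ∀ u ∈ U, γ.2 u ∈ U

theorem Graph.mono {Γ Γ' : Subgroup (H × MulAut T)} (h : Graph Γ') (hle : Γ ≤ Γ') : Graph Γ :=
  fun σ hσ => h σ (hle hσ)

theorem Graph.uniq {Γ : Subgroup (H × MulAut T)} (h : Graph Γ) {q : H} {σ σ' : MulAut T}
    (h1 : (q, σ) ∈ Γ) (h2 : (q, σ') ∈ Γ) : σ = σ' := by
  have := h (σ * σ'⁻¹) (by simpa using Γ.mul_mem h1 (Γ.inv_mem h2))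
  exact mul_inv_eq_one.1 this

theorem Sd.mono {K K' : Subgroup (H → T)} (h : Sd K) (hle : K ≤ K') : Sd K' := fun t =>
  let ⟨f, hf, e⟩ := h t
  ⟨f, hle hf, e⟩

theorem graph_GK {K : Subgroup (H → T)} (h : Sd K) : Graph (GK K) := fun σ hσ => by
  ext t
  obtain ⟨f, hf, rfl⟩ := h t
  simpa using (hσ f hf 1).symm

theorem inv_KG (Γ : Subgroup (H × MulAut T)) : Inv (KG Γ) := fun f hf h γ hγ x => by
  simpa [mul_assoc] using hf γ hγ (x * h)

theorem Inv.inf {K K' : Subgroup (H → T)} (h : Inv K) (h' : Inv K') : Inv (K ⊓ K') :=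
  fun f hf x => ⟨h f hf.1 x, h' f hf.2 x⟩

/-- Right translation as a homomorphism. -/
def tr (h : H) : (H → T) →* (H → T) where
  toFun f := fun x => f (x * h)
  map_one' := rfl
  map_mul' _ _ := rfl

theorem Inv.sup {K K' : Subgroup (H → T)} (h : Inv K) (h' : Inv K') : Inv (K ⊔ K') := by
  intro f hf x
  have : K ⊔ K' ≤ (K ⊔ K').comap (tr x) :=
    sup_le (fun g hg => mem_sup_left (h g hg x)) (fun g hg => mem_sup_right (h' g hg x))
  exact this hf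

open Classical in
/-- The function supported on the domain of `Γ` with value `t` at `1`. -/
noncomputable def dl (Γ : Subgroup (H × MulAut T)) (t : T) : H → T := fun h =>
  if hx : ∃ σ, (h, σ) ∈ Γ then hx.choose t else 1

theorem dl_of_mem {Γ : Subgroup (H × MulAut T)} (hΓ : Graph Γ) (t : T) {h : H} {σ : MulAut T}
    (hm : (h, σ) ∈ Γ) : dl Γ t h = σ t := by
  have hx : ∃ σ, (h, σ) ∈ Γ := ⟨σ, hm⟩
  rw [dl, dif_pos hx, hΓ.uniq hx.choose_spec hm]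

theorem dl_of_not {Γ : Subgroup (H × MulAut T)} (t : T) {h : H} (hm : ¬ ∃ σ, (h, σ) ∈ Γ) :
    dl Γ t h = 1 := by
  rw [dl, dif_neg hm]

theorem dl_one {Γ : Subgroup (H × MulAut T)} (hΓ : Graph Γ) (t : T) : dl Γ t 1 = t :=
  dl_of_mem hΓ t (σ := 1) Γ.one_mem

theorem dl_mem {Γ : Subgroup (H × MulAut T)} (hΓ : Graph Γ) (t : T) : dl Γ t ∈ KG Γ := by
  intro γ hγ h
  by_cases c : ∃ σ, (h, σ) ∈ Γ
  · obtain ⟨σ, hσ⟩ := c
    rw [dl_of_mem hΓ t hσ, dl_of_mem hΓ t (σ := γ.2 * σ) (Γ.mul_mem hγ hσ)]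
    rfl
  · rw [dl_of_not t c, dl_of_not t, map_one]
    rintro ⟨σ, hσ⟩
    refine c ⟨γ.2⁻¹ * σ, ?_⟩
    have h1 : (h, γ.2⁻¹ * σ) = γ⁻¹ * (γ.1 * h, σ) := Prod.ext (by simp) rfl
    rw [h1]
    exact Γ.mul_mem (Γ.inv_mem hγ) hσ

theorem eq_dl {Γ : Subgroup (H × MulAut T)} (hΓ : Graph Γ) {f : H → T} (hf : f ∈ KG Γ)
    (h0 : ∀ h, (¬ ∃ σ, (h, σ) ∈ Γ) → f h = 1) : f = dl Γ (f 1) := by
  funext h
  by_cases c : ∃ σ, (h, σ) ∈ Γ
  · obtain ⟨σ, hσ⟩ := c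
    rw [dl_of_mem hΓ _ hσ]
    simpa using hf _ hσ 1
  · rw [dl_of_not _ c, h0 h c]

theorem sd_KG {Γ : Subgroup (H × MulAut T)} (hΓ : Graph Γ) : Sd (KG Γ) :=
  fun t => ⟨_, dl_mem hΓ t, dl_one hΓ t⟩

theorem GK_KG [Nontrivial T] {Γ : Subgroup (H × MulAut T)} (hΓ : Graph Γ) : GK (KG Γ) = Γ := by
  refine le_antisymm ?_ (le_KG_iff.1 le_rfl)
  rintro ⟨q, σ⟩ hq
  have h1 : ∀ t, dl Γ t q = σ t := fun t => by
    simpa [dl_one hΓ] using hq _ (dl_mem hΓ t) 1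
  obtain ⟨t, ht⟩ := exists_ne (1 : T)
  have h2 : ∃ σ', (q, σ') ∈ Γ := by
    by_contra c
    have := h1 t
    rw [dl_of_not t c] at this
    exact ht (by simpa using this.symm)
  obtain ⟨σ', h3⟩ := h2
  have : σ = σ' := by
    ext t
    rw [← h1 t, dl_of_mem hΓ t h3]
  rwa [this]

/-- Equivariant functions with values in `U`. -/
def PU (Γ : Subgroup (H × MulAut T)) (U : Subgroup T) : Subgroup (H → T) :=
  KG Γ ⊓ Subgroup.pi Set.univ fun _ => U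

theorem mem_PU {Γ : Subgroup (H × MulAut T)} {U : Subgroup T} {f : H → T} :
    f ∈ PU Γ U ↔ f ∈ KG Γ ∧ ∀ h, f h ∈ U := by
  simp [PU, mem_pi]

theorem PU_le (Γ : Subgroup (H × MulAut T)) (U : Subgroup T) : PU Γ U ≤ KG Γ := inf_le_left

theorem PU_mono (Γ : Subgroup (H × MulAut T)) {U U' : Subgroup T} (h : U ≤ U') :
    PU Γ U ≤ PU Γ U' := fun _ hf => mem_PU.2 ⟨(mem_PU.1 hf).1, fun x => h ((mem_PU.1 hf).2 x)⟩

theorem PU_top (Γ : Subgroup (H × MulAut T)) : PU Γ ⊤ = KG Γ :=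
  le_antisymm (PU_le _ _) fun _ hf => mem_PU.2 ⟨hf, fun _ => trivial⟩

theorem PU_bot (Γ : Subgroup (H × MulAut T)) : PU Γ ⊥ = ⊥ :=
  le_bot_iff.1 fun _ hf => mem_bot.2 (funext fun x => mem_bot.1 ((mem_PU.1 hf).2 x))

theorem PU_inf (Γ : Subgroup (H × MulAut T)) (U U' : Subgroup T) :
    PU Γ (U ⊓ U') = PU Γ U ⊓ PU Γ U' := by
  ext f
  simp only [mem_PU, mem_inf]
  exact ⟨fun h => ⟨⟨h.1, fun x => (h.2 x).1⟩, h.1, fun x => (h.2 x).2⟩,
    fun h => ⟨h.1.1, fun x => ⟨h.1.2 x, h.2.2 x⟩⟩⟩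

theorem inv_PU (Γ : Subgroup (H × MulAut T)) (U : Subgroup T) : Inv (PU Γ U) := fun f hf h =>
  mem_PU.2 ⟨inv_KG Γ f (mem_PU.1 hf).1 h, fun _ => (mem_PU.1 hf).2 _⟩

theorem dl_mem_PU {Γ Γ0 : Subgroup (H × MulAut T)} (hΓ : Graph Γ) (hle : Γ0 ≤ Γ) {U : Subgroup T}
    (hU : AInv Γ U) {t : T} (ht : t ∈ U) : dl Γ t ∈ PU Γ0 U := by
  refine mem_PU.2 ⟨KG_anti hle (dl_mem hΓ t), fun h => ?_⟩
  by_cases c : ∃ σ, (h, σ) ∈ Γ
  · obtain ⟨σ, hσ⟩ := c
    rw [dl_of_mem hΓ _ hσ]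
    exact hU _ hσ t ht
  · rw [dl_of_not _ c]; exact U.one_mem

theorem gen_le [Finite H] {Γ : Subgroup (H × MulAut T)} (hΓ : Graph Γ) {K : Subgroup (H → T)}
    (hK : Inv K) {U : Subgroup T} (h : ∀ u ∈ U, dl Γ u ∈ K) : PU Γ U ≤ K := by
  suffices H1 : ∀ n, ∀ f ∈ PU Γ U, {x | f x ≠ 1}.ncard = n → f ∈ K from
    fun f hf => H1 _ f hf rfl
  intro n
  induction n using Nat.strong_induction_on with
  | _ n ih =>
    intro f hf hn
    by_cases c : ∀ x, f x = 1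
    · rw [show f = 1 from funext c]; exact K.one_mem
    push Not at c
    obtain ⟨h0, hh0⟩ := c
    obtain ⟨hfK, hfU⟩ := mem_PU.1 hf
    let g : H → T := fun x => dl Γ (f h0) (x * h0⁻¹)
    have hg : g ∈ K := hK _ (h _ (hfU h0)) h0⁻¹
    have hgK : g ∈ KG Γ := inv_KG Γ _ (dl_mem hΓ _) h0⁻¹
    have hval : ∀ x, g x = f x ∨ g x = 1 := fun x => by
      by_cases c : ∃ σ, (x * h0⁻¹, σ) ∈ Γ
      · obtain ⟨σ, hσ⟩ := c
        left
        have := hfK _ hσ h0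
        simp only [inv_mul_cancel_right] at this
        rw [this]
        exact dl_of_mem hΓ _ hσ
      · exact Or.inr (dl_of_not _ c)
    have hg0 : g h0 = f h0 := by simp [g, dl_one hΓ]
    have h2 : f * g⁻¹ ∈ PU Γ U := mem_PU.2 ⟨mul_mem hfK (inv_mem hgK), fun x => by
      rcases hval x with e | e <;> simp [e, hfU x]⟩
    have h3 : {x | (f * g⁻¹) x ≠ 1}.ncard < n := by
      rw [← hn]
      refine Set.ncard_lt_ncard ⟨fun x hx => ?_, fun c => ?_⟩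
      · rcases hval x with e | e
        · simp [e] at hx
        · simpa [e] using hx
      · have := c (a := h0) hh0
        simp [hg0] at this
    simpa using K.mul_mem (ih _ h3 _ h2 rfl) hg

end Vale.Agent.P183A
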