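import Vale.Agent.P183A.Scott
import Mathlib.GroupTheory.Sylow

/-!
A group of automorphisms of a finite nonabelian simple group that leaves no proper nontrivial
subgroup invariant normalises no nontrivial abelian group of automorphisms.
-/

namespace Vale.Agent.P183A

open Subgroup MulAction
open scoped Pointwise

variable {T : Type} [Group T]

theorem aut_smul_sylow {p : ℕ} (σ : MulAut T) (t : T) (P : Sylow p T) :
    (σ t) • (σ • P) = σ • (t • P) := by
  rw [Sylow.smul_def, Sylow.smul_def, ← mul_smul, ← mul_smul]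
  congr 1
  ext x
  simp

theorem sylow_unique [Finite T] {r p : ℕ} [Fact r.Prime] [Fact p.Prime] {R : Subgroup (MulAut T)}
    (hR : IsPGroup r R) (hr : ¬ r ∣ Nat.card T) (hfix : ∀ t : T, (∀ σ ∈ R, σ t = t) → t = 1)
    {P Q : Sylow p T} (hP : ∀ σ ∈ R, σ • P = P) (hQ : ∀ σ ∈ R, σ • Q = Q) : P = Q := by
  let X := {t : T // t • P = Q}
  let _ : MulAction R X :=
    { smul := fun σ t => ⟨σ.1 t.1, by
        have := aut_smul_sylow σ.1 t.1 P
        rwa [hP _ σ.2, t.2, hQ _ σ.2] at this⟩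
      one_smul := fun _ => rfl
      mul_smul := fun _ _ _ => rfl }
  obtain ⟨t0, ht0⟩ := exists_smul_eq T P Q
  have e : X ≃ stabilizer T P :=
    { toFun := fun t => ⟨t0⁻¹ * t.1, by rw [mem_stabilizer_iff, mul_smul, t.2, ← ht0, inv_smul_smul]⟩
      invFun := fun s => ⟨t0 * s.1, by rw [mul_smul, mem_stabilizer_iff.1 s.2, ht0]⟩
      left_inv := fun t => by simp
      right_inv := fun s => by simp }
  have h1 : ¬ r ∣ Nat.card X := fun h => hr (by
    rw [Nat.card_congr e] at h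
    exact h.trans (card_subgroup_dvd_card _))
  obtain ⟨t, ht⟩ := hR.nonempty_fixed_point_of_prime_not_dvd_card X h1
  have h2 : t.1 = 1 := hfix _ fun σ hσ => congrArg Subtype.val (ht ⟨σ, hσ⟩)
  have h3 := t.2
  rwa [h2, one_smul] at h3

theorem nab [Finite T] (hT : NS T) {A S : Subgroup (MulAut T)} (hn : Nm A S) (hc : Cm S S)
    (hA : ∀ U : Subgroup T, (∀ a ∈ A, ∀ u ∈ U, a u ∈ U) → U = ⊥ ∨ U = ⊤) : S = ⊥ := by
  by_contra hne
  have : Finite (MulAut T) := Finite.of_injective (fun σ : MulAut T => (σ : T → T))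
    DFunLike.coe_injective
  have hS1 : Nat.card S ≠ 1 := fun h => hne (card_eq_one.1 h)
  obtain ⟨r, hr, hrd⟩ := Nat.exists_prime_and_dvd hS1
  have : Fact r.Prime := ⟨hr⟩
  obtain ⟨σ0, hσ0⟩ := exists_prime_orderOf_dvd_card' r hrd
  let R : Subgroup (MulAut T) :=
    { carrier := {σ | σ ∈ S ∧ σ ^ r = 1}
      one_mem' := ⟨S.one_mem, one_pow _⟩
      mul_mem' := fun {a b} ha hb => ⟨S.mul_mem ha.1 hb.1, by
        rw [Commute.mul_pow (hc a ha.1 b hb.1), ha.2, hb.2, one_mul]⟩
      inv_mem' := fun {a} ha => ⟨S.inv_mem ha.1, by rw [inv_pow, ha.2, inv_one]⟩ }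
  have hR : IsPGroup r R := fun σ => ⟨1, Subtype.ext (by simpa using σ.2.2)⟩
  have hAR : Nm A R := fun a ha σ hσ => ⟨hn a ha σ hσ.1, by rw [conj_pow, hσ.2]; simp⟩
  have hσR : σ0.1 ∈ R := ⟨σ0.2, by
    rw [← hσ0]
    exact congrArg Subtype.val (pow_orderOf_eq_one σ0)⟩
  have hσ1 : σ0.1 ≠ 1 := fun h => by
    have : σ0 = 1 := Subtype.ext h
    rw [this, orderOf_one] at hσ0
    exact hr.one_lt.ne hσ0
  let F : Subgroup T :=
    { carrier := {t | ∀ σ ∈ R, σ t = t}
      one_mem' := fun σ _ => map_one σ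
      mul_mem' := fun {a b} ha hb σ hσ => by rw [map_mul, ha σ hσ, hb σ hσ]
      inv_mem' := fun {a} ha σ hσ => by rw [map_inv, ha σ hσ] }
  have hF : F = ⊥ := by
    refine (hA F fun a ha u hu σ hσ => ?_).resolve_right fun e => hσ1 ?_
    · have := hu _ (hAR a⁻¹ (A.inv_mem ha) σ hσ)
      simp only [inv_inv, MulAut.mul_apply] at this
      have h2 := congrArg a this
      simpa using h2
    · ext t
      have : t ∈ F := by rw [e]; trivial
      exact this _ hσR
  have hfix : ∀ t : T, (∀ σ ∈ R, σ t = t) → t = 1 := fun t ht => by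
    have : t ∈ F := ht
    rwa [hF] at this
  have hrT : ¬ r ∣ Nat.card T := fun h => by
    obtain ⟨b, hb, hb1⟩ := hR.exists_fixed_point_of_prime_dvd_card_of_fixed_point (α := T) h
      (a := 1) (fun σ => map_one σ.1)
    exact hb1 (hfix b fun σ hσ => hb ⟨σ, hσ⟩).symm
  have := hT.nontrivial
  obtain ⟨p, hp, hpd⟩ := Nat.exists_prime_and_dvd (Finite.one_lt_card (α := T)).ne'
  have : Fact p.Prime := ⟨hp⟩
  obtain ⟨P0⟩ : Nonempty (Sylow p T) := inferInstance
  obtain ⟨P, hP⟩ := hR.nonempty_fixed_point_of_prime_not_dvd_card (Sylow p T) fun h =>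
    hrT (h.trans ((Sylow.card_dvd_index P0).trans (index_dvd_card _)))
  have hP' : ∀ σ ∈ R, σ • P = P := fun σ hσ => hP ⟨σ, hσ⟩
  have hPA : ∀ a ∈ A, a • P = P := fun a ha => by
    refine sylow_unique hR hrT hfix (fun σ hσ => ?_) hP'
    have := hP' _ (hAR a⁻¹ (A.inv_mem ha) σ hσ)
    rw [inv_inv, mul_smul, mul_smul, inv_smul_eq_iff] at this
    exact this
  rcases hA P (fun a ha u hu => by
    have h1 : a • u ∈ a • (P : Subgroup T) := smul_mem_pointwise_smul u a _ hu
    rwa [← Sylow.pointwise_smul_def, hPA a ha] at h1) with e | e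
  · exact Sylow.ne_bot_of_dvd_card P hpd e
  · have h1 : IsPGroup p T := by
      have := P.isPGroup'
      rw [e] at this
      exact this.of_equiv topEquiv
    obtain ⟨z, hz⟩ := (bot_lt_iff_ne_bot.1 h1.bot_lt_center |> ne_bot_iff_exists_ne_one.1)
    exact hz (Subtype.ext (hT.center fun t => (mem_center_iff.1 z.2 t).symm))

end Vale.Agent.P183A
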