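import Vale.Agent.P183.Defs
import Vale.Agent.P183A.Basic
import Mathlib.GroupTheory.GroupAction.Quotient

/-!
Intervals of subgroups of finite groups are congruence lattices of finite algebras.
-/

namespace Vale.Agent.P183A

open P183

/-- The coset space with the left translations as operations. -/
def cosetAlg (G : Type) [Group G] [Finite G] (H : Subgroup G) : FiniteAlgebra where
  carrier := G ⧸ H
  index := G
  arity _ := 1
  op g x := g • x 0
  finite_carrier := Finite.of_surjective _ (QuotientGroup.mk_surjective (s := H))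
  nonempty_carrier := ⟨((1 : G) : G ⧸ H)⟩
  finite_index := inferInstance

theorem GI.rep {L : Type} [LE L] (h : GI L) : Representable L := by
  obtain ⟨G, _, _, H, ⟨e⟩⟩ := h
  refine ⟨cosetAlg G H, ⟨e.trans ?_⟩⟩
  let f : {K : Subgroup G // H ≤ K} → (cosetAlg G H).Con := fun K =>
    ⟨Setoid.ker (Subgroup.quotientMapOfLE K.2), fun g x y hxy => by
      have h0 := hxy (0 : Fin 1)
      change Subgroup.quotientMapOfLE K.2 ((show G from g) • (show G ⧸ H from x (0 : Fin 1))) =
        Subgroup.quotientMapOfLE K.2 ((show G from g) • (show G ⧸ H from y (0 : Fin 1)))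
      change Subgroup.quotientMapOfLE K.2 (x (0 : Fin 1)) =
        Subgroup.quotientMapOfLE K.2 (y (0 : Fin 1)) at h0
      generalize x (0 : Fin 1) = a at h0
      generalize y (0 : Fin 1) = b at h0
      obtain ⟨a, rfl⟩ := QuotientGroup.mk_surjective (s := H) a
      obtain ⟨b, rfl⟩ := QuotientGroup.mk_surjective (s := H) b
      exact congrArg (fun z : G ⧸ K.1 => (show G from g) • z) h0⟩
  have hf : ∀ (K : {K : Subgroup G // H ≤ K}) (a b : G),
      (f K).1 (a : G ⧸ H) (b : G ⧸ H) ↔ a⁻¹ * b ∈ K.1 := fun K a b => QuotientGroup.eq (s := K.1)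
  refine RelIso.ofSurjective (OrderEmbedding.ofMapLEIff f fun K K' => ⟨fun h g hg => ?_,
    fun h a b hab => ?_⟩) fun r => ?_
  · have := (hf K' 1 g).1 (h ((hf K 1 g).2 (by simpa using hg)))
    simpa using this
  · obtain ⟨a, rfl⟩ := QuotientGroup.mk_surjective (s := H) a
    obtain ⟨b, rfl⟩ := QuotientGroup.mk_surjective (s := H) b
    exact (hf K' a b).2 (h ((hf K a b).1 hab))
  · have hr : ∀ (g a b : G), r.1 (a : G ⧸ H) (b : G ⧸ H) →
        r.1 ((g * a : G) : G ⧸ H) ((g * b : G) : G ⧸ H) := fun g a b h =>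
      r.2 g (fun _ => (a : G ⧸ H)) (fun _ => (b : G ⧸ H)) fun _ => h
    let K : Subgroup G :=
      { carrier := {g | r.1 ((1 : G) : G ⧸ H) (g : G ⧸ H)}
        one_mem' := r.1.refl _
        mul_mem' := fun {a b} ha hb => r.1.trans ha (by simpa using hr a 1 b hb)
        inv_mem' := fun {a} ha => r.1.symm (by simpa using hr a⁻¹ 1 a ha) }
    have hK : H ≤ K := fun g hg => by
      change r.1 ((1 : G) : G ⧸ H) (g : G ⧸ H)
      rw [show ((1 : G) : G ⧸ H) = (g : G ⧸ H) from QuotientGroup.eq.2 (by simpa using hg)]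
      exact r.1.refl _
    refine ⟨⟨K, hK⟩, Subtype.ext (Setoid.ext fun a b => ?_)⟩
    obtain ⟨a, rfl⟩ := QuotientGroup.mk_surjective (s := H) a
    obtain ⟨b, rfl⟩ := QuotientGroup.mk_surjective (s := H) b
    refine (hf ⟨K, hK⟩ a b).trans ⟨fun h => ?_, fun h => ?_⟩
    · simpa using hr a 1 _ h
    · have := hr a⁻¹ a b h
      rwa [inv_mul_cancel] at this

theorem ASI.gi {L : Type} [LE L] (h : ASI L) : GI L :=
  let ⟨G, i1, i2, _, H, _, _, _, _, _, e⟩ := h
  ⟨G, i1, i2, H, e⟩

end Vale.Agent.P183A
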