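import Vale.Agent.P183A.LemN
import Mathlib.Data.SetLike.Fintype
import Mathlib.Order.Preorder.Finite

/-!
From an interval of subgroups to the function model.
-/

namespace Vale.Agent.P183A

open Subgroup
open scoped commutatorElement

instance finite_subgroup (E : Type) [Group E] [Finite E] : Finite (Subgroup E) :=
  Finite.of_injective (fun K : Subgroup E => (K : Set E)) SetLike.coe_injective

theorem exists_simple_quot (E : Type) [Group E] [Finite E] [Nontrivial E]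
    (hp : ⁅(⊤ : Subgroup E), (⊤ : Subgroup E)⁆ = ⊤) :
    ∃ (T : Type) (_ : Group T) (_ : Finite T) (π : E →* T), NS T ∧ Function.Surjective π := by
  obtain ⟨X, hX⟩ := (Set.toFinite {X : Subgroup E | X.Normal ∧ X ≠ ⊤}).exists_maximal
    ⟨⊥, inferInstance, bot_ne_top⟩
  have := hX.1.1
  have hs := QuotientGroup.mk'_surjective X
  refine ⟨E ⧸ X, inferInstance, Finite.of_surjective _ hs, QuotientGroup.mk' X, ⟨?_, ?_⟩, hs⟩
  · have : Nontrivial (E ⧸ X) := QuotientGroup.nontrivial_iff.2 hX.1.2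
    refine ⟨fun W hW => ?_⟩
    by_cases e : W.comap (QuotientGroup.mk' X) = ⊤
    · right
      rw [← map_comap_eq_self_of_surjective hs W, e, map_top_of_surjective _ hs]
    · left
      have h1 := hX.2 (y := W.comap (QuotientGroup.mk' X)) ⟨hW.comap _, e⟩ (fun x hx => by
        rw [mem_comap, QuotientGroup.mk'_apply, (QuotientGroup.eq_one_iff x).2 hx]
        exact W.one_mem)
      refine le_bot_iff.1 fun w hw => ?_
      obtain ⟨x, rfl⟩ := hs w
      exact (QuotientGroup.eq_one_iff x).2 (h1 hw)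
  · by_contra c
    push Not at c
    refine hX.1.2 (top_le_iff.1 ?_)
    rw [← hp, commutator_le]
    intro a _ b _
    rw [← QuotientGroup.eq_one_iff]
    change QuotientGroup.mk' X ⁅a, b⁆ = 1
    rw [map_commutatorElement, commutatorElement_eq_one_iff_mul_comm]
    exact c _ _

variable {G : Type} [Group G]

/-- `E` is the smallest normal subgroup of `Z` not contained in `B`. -/
structure Sm (B Z E : Subgroup G) : Prop where
  le : E ≤ Z
  nm : Nm Z E
  nle : ¬ E ≤ B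
  min : ∀ R, R ≤ Z → Nm Z R → ¬ R ≤ B → E ≤ R

theorem exists_sm [Finite G] {B Z : Subgroup G} (h : NoMod B Z) : ∃ E, Sm B Z E := by
  obtain ⟨E, hE⟩ := (Set.toFinite {E : Subgroup G | E ≤ Z ∧ Nm Z E ∧ ¬ E ≤ B}).exists_minimal
    ⟨Z, le_rfl, Nm.of_le le_rfl, h.lt.not_ge⟩
  refine ⟨E, hE.1.1, hE.1.2.1, hE.1.2.2, fun R h1 h2 h3 => ?_⟩
  have h4 := h.not_comm hE.1.2.1 hE.1.1 h2 h1 hE.1.2.2 h3
  have h5 : ⁅R, E⁆ ≤ R ⊓ E :=
    le_inf (h2.mono hE.1.1).comm_le_left (hE.1.2.1.mono h1).comm_le_right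
  exact (hE.2 (y := R ⊓ E) ⟨inf_le_left.trans h1, h2.inf hE.1.2.1, fun c => h4 (h5.trans c)⟩
    inf_le_right).trans inf_le_left

theorem Sm.sup {B Z E : Subgroup G} (h : Sm B Z E) (hm : NoMod B Z) : B ⊔ E = Z :=
  (hm.alt h.nm h.le).resolve_left h.nle

theorem Sm.perfect {B Z E : Subgroup G} (h : Sm B Z E) (hm : NoMod B Z) : E ≤ ⁅E, E⁆ :=
  h.min _ ((commutator_le_self E).trans h.le) (h.nm.comm h.nm)
    (hm.not_comm h.nm h.le h.nm h.le h.nle h.nle)

/-- Conjugation by an element of `B` on `E`. -/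
def cj {B E : Subgroup G} (h : Nm B E) (b : B) : E →* E where
  toFun n := ⟨b * n * b⁻¹, h b b.2 n n.2⟩
  map_one' := Subtype.ext (by simp)
  map_mul' x y := Subtype.ext (by simp [mul_assoc])

variable {T : Type} [Group T]

/-- The map of `E` into the function group. -/
def Phi {B E : Subgroup G} (h : Nm B E) (π : E →* T) : E →* (B → T) :=
  MonoidHom.pi fun b => π.comp (cj h b)

theorem Phi_apply {B E : Subgroup G} (h : Nm B E) (π : E →* T) (n : E) (b : B) :
    Phi h π n b = π (cj h b n) := rfl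

theorem Phi_cj {B E : Subgroup G} (h : Nm B E) (π : E →* T) (n : E) (b : B) :
    (fun x => Phi h π n (x * b)) = Phi h π (cj h b n) := by
  funext x
  rw [Phi_apply, Phi_apply]
  congr 1
  exact Subtype.ext (by simp [cj, mul_assoc])

theorem Phi_one {B E : Subgroup G} (h : Nm B E) (π : E →* T) (n : E) : Phi h π n 1 = π n := by
  rw [Phi_apply]
  congr 1
  exact Subtype.ext (by simp [cj])

/-- The image of `K ∩ E` in the function group. -/
def im {B E : Subgroup G} (h : Nm B E) (π : E →* T) (K : Subgroup G) : Subgroup (B → T) :=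
  (K.subgroupOf E).map (Phi h π)

theorem inv_im {B E : Subgroup G} (h : Nm B E) (π : E →* T) {K : Subgroup G} (hK : Nm B K) :
    Inv (im h π K) := by
  rintro _ ⟨n, hn, rfl⟩ b
  rw [Phi_cj]
  exact ⟨_, hK b b.2 n hn, rfl⟩

theorem im_mono {B E : Subgroup G} (h : Nm B E) (π : E →* T) {K K' : Subgroup G} (hK : K ≤ K') :
    im h π K ≤ im h π K' := map_mono (comap_mono hK)

theorem sd_im {B E : Subgroup G} (h : Nm B E) {π : E →* T} (hπ : Function.Surjective π) :
    Sd (im h π E) := fun t =>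
  let ⟨n, hn⟩ := hπ t
  ⟨_, ⟨n, n.2, rfl⟩, (Phi_one h π n).trans hn⟩

/-- The kernel of the map into the function group. -/
def kr {B E : Subgroup G} (h : Nm B E) (π : E →* T) : Subgroup G := (Phi h π).ker.map E.subtype

theorem kr_le {B E : Subgroup G} (h : Nm B E) (π : E →* T) : kr h π ≤ E := map_subtype_le _

theorem nm_kr {B E : Subgroup G} (h : Nm B E) (π : E →* T) : Nm (B ⊔ E) (kr h π) := by
  refine Nm.sup_left ?_ ?_
  · rintro b hb _ ⟨n, hn, rfl⟩
    refine ⟨cj h ⟨b, hb⟩ n, ?_, rfl⟩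
    rw [SetLike.mem_coe, MonoidHom.mem_ker] at hn ⊢
    rw [← Phi_cj, hn]
    rfl
  · rintro e he _ ⟨n, hn, rfl⟩
    exact ⟨_, (Phi h π).normal_ker.conj_mem n hn ⟨e, he⟩, rfl⟩

theorem le_of_im_le {B E : Subgroup G} (h : Nm B E) (π : E →* T) {K K' : Subgroup G}
    (hk : kr h π ≤ K') (hle : im h π K ≤ im h π K') : K ⊓ E ≤ K' := by
  rintro g ⟨hg, hgE⟩
  obtain ⟨n, hn, e⟩ := hle ⟨⟨g, hgE⟩, hg, rfl⟩
  have : (n⁻¹ * ⟨g, hgE⟩ : E).1 ∈ kr h π := ⟨n⁻¹ * ⟨g, hgE⟩, by simp [e], rfl⟩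
  simpa using K'.mul_mem hn (hk this)

theorem Sm.kr_le {B Z E : Subgroup G} (hE : Sm B Z E) (hm : NoMod B Z) [Nontrivial T]
    {π : E →* T} (hπ : Function.Surjective π) : kr (hE.nm.mono hm.lt.le) π ≤ B := by
  by_contra c
  have h1 := hE.min _ ((P183A.kr_le _ π).trans hE.le) ((nm_kr _ π).mono (hE.sup hm).ge) c
  obtain ⟨t, ht⟩ := exists_ne (1 : T)
  obtain ⟨n, rfl⟩ := hπ t
  obtain ⟨n', hn', e⟩ := h1 n.2
  rw [show n' = n from Subtype.ext e] at hn'
  exact ht (by rw [← Phi_one (hE.nm.mono hm.lt.le), MonoidHom.mem_ker.1 hn']; rfl)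

/-- The model of an interval. -/
def Sm.mod [Finite G] [Finite T] {B Z E : Subgroup G} (hE : Sm B Z E) (hm : NoMod B Z) (hT : NS T)
    {π : E →* T} (hπ : Function.Surjective π) {L : Type} [Lattice L]
    (R : Emb L (Set.Icc B Z)) : Mod L B T where
  Γ0 := GK (im (hE.nm.mono hm.lt.le) π E)
  M := im (hE.nm.mono hm.lt.le) π B
  graph := graph_GK (sd_im _ hπ)
  inv := inv_im _ π (Nm.of_le le_rfl)
  le := le_KG_iff.2 (GK_anti (map_mono fun n _ => n.2))
  E := by
    have := hT.nontrivial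
    have hB := hE.nm.mono hm.lt.le
    have hk := hE.kr_le hm hπ
    have hS : KG (GK (im hB π E)) = im hB π E := KG_GK hT (inv_im _ π hB) (sd_im _ hπ)
    refine R.trans (im hB π) _ (fun a ha b hb => ⟨fun h => ?_, im_mono hB π⟩)
      fun K => ⟨?_, fun hK => ?_⟩
    · have h1 : a = B ⊔ (E ⊓ a) := by
        rw [← hB.dedekind ha.1, hE.sup hm, inf_eq_right.2 ha.2]
      rw [h1]
      exact sup_le hb.1 ((inf_comm _ _).le.trans (le_of_im_le hB π (hk.trans hb.1) h))
    · rintro ⟨a, ha, rfl⟩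
      exact ⟨inv_im hB π (Nm.of_le ha.1), im_mono hB π ha.1, by
        rw [hS]; exact map_mono fun n _ => n.2⟩
    · let P : Subgroup G := (K.comap (Phi hB π)).map E.subtype
      have hPE : P ≤ E := map_subtype_le _
      have hBP : Nm B P := by
        rintro b hb _ ⟨n, hn, rfl⟩
        refine ⟨cj hB ⟨b, hb⟩ n, ?_, rfl⟩
        rw [SetLike.mem_coe, mem_comap, ← Phi_cj]
        exact hK.1 _ hn _
      have h2 : B ⊓ E ≤ P := fun g hg => ⟨⟨g, hg.2⟩, hK.2.1 ⟨⟨g, hg.2⟩, hg.1, rfl⟩, rfl⟩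
      refine ⟨B ⊔ P, ⟨le_sup_left, sup_le hm.lt.le (hPE.trans hE.le)⟩, le_antisymm ?_ ?_⟩
      · rintro _ ⟨n, hn, rfl⟩
        have h3 : n.1 ∈ (B ⊔ P) ⊓ E := ⟨hn, n.2⟩
        rw [hBP.dedekind' hPE, sup_eq_right.2 h2] at h3
        obtain ⟨n', hn', e⟩ := h3
        rwa [← show n' = n from Subtype.ext e]
      · intro f hf
        have h3 := hK.2.2 hf
        rw [hS] at h3
        obtain ⟨n, -, rfl⟩ := h3
        exact ⟨n, mem_sup_right (S := B) ⟨n, hf, rfl⟩, rfl⟩

theorem Sm.mod_κ [Finite G] [Finite T] {B Z E : Subgroup G} (hE : Sm B Z E) (hm : NoMod B Z)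
    (hT : NS T) {π : E →* T} (hπ : Function.Surjective π) {L : Type} [Lattice L]
    (R : Emb L (Set.Icc B Z)) (a : L) :
    (hE.mod hm hT hπ R).E.κ a = im (hE.nm.mono hm.lt.le) π (R.κ a) := rfl

theorem Sm.exists_quot [Finite G] {B Z E : Subgroup G} (hE : Sm B Z E) (hm : NoMod B Z) :
    ∃ (T : Type) (_ : Group T) (_ : Finite T) (π : E →* T), NS T ∧ Function.Surjective π := by
  have : Nontrivial E := (nontrivial_iff_ne_bot E).2 fun e => hE.nle (e.le.trans bot_le)
  refine exists_simple_quot E (map_injective E.subtype_injective ?_)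
  rw [map_commutator, ← MonoidHom.range_eq_map, range_subtype]
  exact le_antisymm (commutator_le_self E) (hE.perfect hm)

theorem Emb.nomod {L : Type} [Lattice L] [BoundedOrder L] {α : Type} [Lattice α] {B Z : α}
    (R : Emb L (Set.Icc B Z)) (h : NoMod (⊥ : L) ⊤) : NoMod B Z :=
  h.of_iso R.κ (fun x _ y _ => R.le_iff x y) fun K => by
    rw [← R.range]
    exact ⟨fun ⟨x, _, e⟩ => ⟨x, e⟩, fun ⟨x, e⟩ => ⟨x, ⟨bot_le, le_top⟩, e⟩⟩

end Vale.Agent.P183A
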