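import Vale.Agent.P183A.LG
import Vale.Agent.P183A.Nab

/-!
The descent: a good lattice is not a group interval unless `Λ` is an almost simple interval.
-/

namespace Vale.Agent.P183A

open Subgroup
open scoped commutatorElement

variable {Λ : Type} [Lattice Λ]

theorem Good.dual {L : Type} [Lattice L] [BoundedOrder L] (h : Good Λ L) : Good Λ Lᵒᵈ :=
  ⟨h.2.1, h.1, h.2.2.2, h.2.2.1⟩

variable {H T : Type} [Group H] [Group T] [Finite H] [Finite T]
variable {L : Type} [Lattice L] [BoundedOrder L]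

/-- The upper interval above a subdirect element, as an interval of graphs. -/
def Mod.upEmb (m : Mod L H T) (hT : NS T) (z : Lᵒᵈ) (hz : Sd (m.E.κ (OrderDual.ofDual z))) :
    Emb (Set.Iic z) (Set.Icc m.Γ0 (GK (m.E.κ (OrderDual.ofDual z)))) where
  κ w := GK (m.E.κ (OrderDual.ofDual w.1))
  le_iff a b := m.up_le hT hz (a' := ⊤) _ ⟨a.2, le_top⟩ _ ⟨b.2, le_top⟩
  range Γ := by
    have h := m.up_range hT hz le_top Γ
    rw [m.gk_top hT] at h
    rw [← h]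
    exact ⟨fun ⟨a, e⟩ => ⟨_, ⟨a.2, le_top⟩, e⟩, fun ⟨a, ha, e⟩ => ⟨⟨a, ha.1⟩, e⟩⟩

theorem Mod.not_tw (m : Mod L H T) (hT : NS T) (hΛ : ¬ ASI Λ) (hC : Conf Λ Lᵒᵈ)
    (hsd : ∀ a, a ≠ ⊥ → Sd (m.E.κ a)) (hM : m.M = ⊥)
    (hA : ∀ U, AInv m.Γ0 U → U = ⊥ ∨ U = ⊤) : False := by
  have := hT.nontrivial
  have := finite_aut (T := T)
  obtain ⟨z, hzm, hzs, hzt, hzn⟩ := hC
  let Γ : Finset (Fin 4) → Subgroup (H × MulAut T) := fun I => GK (m.E.κ (OrderDual.ofDual (z I)))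
  have hS : ∀ I : Finset (Fin 4), I.card ≤ 3 → Sd (m.E.κ (OrderDual.ofDual (z I))) :=
    fun I hI => hsd _ (hzn I hI).1
  have hΓm : Monotone Γ := fun I I' h => GK_anti ((m.E.le_iff _ _).2 (hzm h))
  have h0 : ∀ I, m.Γ0 ≤ Γ I := fun I => le_KG_iff.1 (m.kle _)
  have low : ∀ (I : Finset (Fin 4)) (Δ : Subgroup (H × MulAut T)), I.Nonempty →
      (∀ i ∈ I, Γ {i} ≤ Δ) → KG Δ ≤ m.E.κ (OrderDual.ofDual (z I)) := fun I Δ hI h => by
    obtain ⟨i, hi⟩ := hI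
    obtain ⟨b, hb⟩ := (m.E.range (KG Δ)).2
      ⟨inv_KG _, hM.le.trans bot_le, KG_anti ((h0 _).trans (h i hi))⟩
    rw [← hb, m.E.le_iff]
    change z I ≤ OrderDual.toDual b
    rw [hzs I ⟨i, hi⟩]
    refine Finset.sup_le fun j hj => ?_
    change b ≤ OrderDual.ofDual (z {j})
    rw [← m.E.le_iff, hb, ← KG_GK hT (m.kinv _) (hS _ (card1 j))]
    exact KG_anti (h j hj)
  have gen : ∀ (I : Finset (Fin 4)) (Δ : Subgroup (H × MulAut T)), I.Nonempty → I.card ≤ 3 →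
      (∀ i ∈ I, Γ {i} ≤ Δ) → Γ I ≤ Δ := fun I Δ hI hc h => by
    have h1 := GK_anti (low I (Δ ⊓ Γ I) hI fun i hi => le_inf (h i hi) (hΓm (by simpa using hi)))
    rw [GK_KG ((graph_GK (hS I hc)).mono inf_le_right)] at h1
    exact h1.trans inf_le_left
  let W : Subgroup (H × MulAut T) := ⨆ i, Γ {i}
  have hiW : ∀ i, Γ {i} ≤ W := fun i => le_iSup (fun i => Γ {i}) i
  have hΓW : ∀ I : Finset (Fin 4), I.card ≤ 3 → Γ I ≤ W := fun I hI => by
    rcases I.eq_empty_or_nonempty with rfl | hne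
    · exact (hΓm (Finset.empty_subset {0})).trans (hiW 0)
    · exact gen I W hne hI fun i _ => hiW i
  let Z : Finset (Fin 4) → Subgroup (H × MulAut T) := fun I => if I.card ≤ 3 then Γ I else W
  have hZ : ∀ I : Finset (Fin 4), I.card ≤ 3 → Z I = Γ I := fun I hI => if_pos hI
  have hZW : ∀ I, Z I ≤ W := fun I => by
    by_cases hI : I.card ≤ 3
    · rw [hZ I hI]; exact hΓW I hI
    · exact (if_neg hI).le
  let D : Subgroup (H × MulAut T) := W ⊓ (MonoidHom.snd H (MulAut T)).ker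
  let X : Subgroup (H × MulAut T) := W ⊓ (MonoidHom.fst H (MulAut T)).ker
  have c0 : (∅ : Finset (Fin 4)).card ≤ 3 := by simp
  have key : ⁅X, X⁆ ≤ Z ∅ := by
    refine lg hΛ (B := m.Γ0) (W := W) (D := D) (fun I I' h => ?_) (fun i j => ?_) ?_ hZW
      ((h0 _).trans (hZ _ c0).ge) (fun I hI => ?_) ((Nm.of_le le_rfl).inf (Nm.of_normal _ _))
      inf_le_left inf_le_left (fun i => ?_) ?_
    · by_cases hI : I'.card ≤ 3
      · rw [hZ I' hI, hZ I ((Finset.card_le_card h).trans hI)]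
        exact hΓm h
      · exact (hZW I).trans (if_neg hI).ge
    · rw [hZ _ (card2 i j), hZ _ (card1 i), hZ _ (card1 j)]
      refine gen _ _ (by simp) (card2 i j) fun k hk => ?_
      rcases Finset.mem_insert.1 hk with rfl | hk
      · exact le_sup_left
      · rw [Finset.mem_singleton.1 hk]; exact le_sup_right
    · exact iSup_congr fun i => (hZ _ (card1 i)).symm
    · rw [hZ I hI]
      exact ⟨_, _, _, (hzn I hI).2, ⟨m.upEmb hT (z I) (hS I hI)⟩⟩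
    · rw [hZ _ (card1 i)]
      obtain ⟨N⟩ := (hzn _ (card1 i)).2
      let R := m.upEmb hT (z {i}) (hS _ (card1 i))
      have E1 : Emb Λ (Set.Icc (R.κ N.x) (Γ {i})) :=
        N.top_emb.trans R.κ _ (fun a _ b _ => R.le_iff a b) fun K => ⟨by
          rintro ⟨a, ha, rfl⟩
          exact ⟨(R.le_iff _ _).2 ha, (R.mem a).2⟩, fun hK => by
          obtain ⟨a, rfl⟩ := (R.range K).2 ⟨(R.mem _).1.trans hK.1, hK.2⟩
          exact ⟨a, (R.le_iff _ _).1 hK.1, rfl⟩⟩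
      rcases ext_case hT (R.nomod N.nomod) (R.mem _).1 (R.mem _).2 E1 with h | h | ⟨V, h1, h2, h3⟩
      · exact absurd h hΛ
      · exact h.ge.trans (sup_le_sup_left (le_inf (inf_le_inf_right _ (hiW i)) inf_le_left) _)
      · exact absurd (hA V fun γ hγ => h3 γ (h0 _ hγ)) (not_or.2 ⟨h1, h2⟩)
    · intro a ha b hb
      have e1 : a.1 = 1 := ha.2
      have e2 : b.2 = 1 := hb.2
      exact Prod.ext (by simp [e1]) (by simp [e2])
  rw [hZ _ c0] at key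
  have hX := nab hT (A := m.Γ0.map (MonoidHom.snd H (MulAut T)))
    (S := X.map (MonoidHom.snd H (MulAut T))) (by
      rintro _ ⟨γ, hγ, rfl⟩ _ ⟨x, hx, rfl⟩
      have hn : Nm W X := (Nm.of_le le_rfl).inf (Nm.of_normal _ _)
      exact ⟨_, hn γ (((h0 _).trans (hiW 0)) hγ) x hx, by simp⟩) (by
      rintro _ ⟨x, hx, rfl⟩ _ ⟨y, hy, rfl⟩
      have e1 : x.1 = 1 := hx.2
      have h1 := key (commutator_mem_commutator hx hy)
      have h2 : ⁅x, y⁆ = (1, ⁅x.2, y.2⁆) := Prod.ext (by simp [commutatorElement_def, e1]) rfl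
      rw [h2] at h1
      exact commutatorElement_eq_one_iff_mul_comm.1 (graph_GK (hS _ c0) _ h1))
    fun U hU => hA U fun γ hγ => hU _ ⟨γ, hγ, rfl⟩
  have hW : Graph W := fun σ hσ => by
    have : σ ∈ X.map (MonoidHom.snd H (MulAut T)) := ⟨(1, σ), ⟨hσ, rfl⟩, rfl⟩
    rwa [hX] at this
  have h1 := low Finset.univ W Finset.univ_nonempty fun i _ => hiW i
  rw [hzt] at h1
  obtain ⟨t, ht⟩ := exists_ne (1 : T)
  obtain ⟨f, hf, e⟩ := sd_KG hW t
  have h2 : f ∈ (⊥ : Subgroup (H → T)) := (m.kbot.trans hM).le (h1 hf)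
  rw [mem_bot] at h2
  exact ht (by rw [← e, h2]; rfl)

theorem not_rep (hΛ : ¬ ASI Λ) (n : ℕ) : ∀ (L : Type) [Lattice L] [BoundedOrder L], Good Λ L →
    ∀ (G : Type) [Group G] [Finite G] (B Z : Subgroup G), Nat.card Z = n →
      Emb L (Set.Icc B Z) → False := by
  induction n using Nat.strong_induction_on with
  | _ n ih =>
    intro L _ _ hL G _ _ B Z hn R
    obtain ⟨D⟩ := hL.1
    have hm := R.nomod D.nomod
    obtain ⟨E, hE⟩ := exists_sm hm
    obtain ⟨T, _, _, π, hT, hπ⟩ := hE.exists_quot hm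
    have := finite_aut (T := T)
    let m := hE.mod hm hT hπ R
    obtain ⟨h1, h2 | ⟨h2, h3⟩⟩ := m.tri hT D hΛ
    · have hs : Sd (m.E.κ ⊥) := by rw [m.kbot]; exact h2
      have E1 := m.upEmb hT (OrderDual.toDual ⊥) hs
      refine ih (Nat.card (GK (m.E.κ ⊥))) ?_ Lᵒᵈ hL.dual _ m.Γ0 _ rfl
        ⟨fun a => E1.κ ⟨a, le_top (α := Lᵒᵈ)⟩, fun a b => E1.le_iff _ _, fun K => ?_⟩
      · rw [← hn]
        refine lt_of_le_of_lt (Nat.card_le_card_of_injective (fun γ : GK (m.E.κ ⊥) => γ.1.1) ?_)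
          (Set.ncard_lt_ncard (SetLike.coe_ssubset_coe.2 hm.lt))
        rintro ⟨⟨a, σ⟩, ha⟩ ⟨⟨b, τ⟩, hb⟩ e
        obtain rfl : a = b := e
        exact Subtype.ext (Prod.ext rfl ((graph_GK hs).uniq ha hb))
      · exact Iff.trans ⟨fun ⟨a, e⟩ => ⟨_, e⟩, fun ⟨a, e⟩ => ⟨a.1, e⟩⟩ (E1.range K)
    · exact m.not_tw hT hΛ hL.2.2.2 h1 h2 h3

theorem asi_of_good (hL : Good Λ L) (h : GI L) : ASI Λ := by
  by_contra hΛ
  obtain ⟨G, _, _, H, ⟨e⟩⟩ := h
  let E := Emb.ofIso (S := {K : Subgroup G | H ≤ K}) e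
  exact not_rep hΛ _ L hL G H ⊤ rfl ⟨E.κ, E.le_iff, fun K => (E.range K).trans
    ⟨fun h => ⟨h, le_top⟩, fun h => h.1⟩⟩

end Vale.Agent.P183A
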